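import Mathlib
import Crest.Prelude.Def_Complexity

/-! A small structured language over stacks of bits, its timed semantics, and its compilation to
the library's stack machines. -/

set_option autoImplicit false

namespace Crest.Agent.PT

open Function Turing

/-- Programs over stacks of bits indexed by `K`. -/
inductive Prog (K : Type) : Type
  | skip : Prog K
  | push : K → Bool → Prog K
  | pop : K → Prog K
  | seq : Prog K → Prog K → Prog K
  | br : K → (Option Bool → Bool) → Prog K → Prog K → Prog K
  | loop : K → (Option Bool → Bool) → Prog K → Prog K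

variable {K : Type} [DecidableEq K]

/-- Timed big-step semantics. -/
inductive Run : Prog K → (K → List Bool) → (K → List Bool) → ℕ → Prop
  | skip (S) : Run .skip S S 1
  | push (k b S) : Run (.push k b) S (update S k (b :: S k)) 1
  | pop (k S) : Run (.pop k) S (update S k (S k).tail) 1
  | seq {p q S S' S'' n m} : Run p S S' n → Run q S' S'' m → Run (.seq p q) S S'' (n + m)
  | brt {k c p q S S' n} : c (S k).head? = true → Run p S S' n → Run (.br k c p q) S S' (n + 1)
  | brf {k c p q S S' n} : c (S k).head? = false → Run q S S' n → Run (.br k c p q) S S' (n + 1)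
  | loop0 {k c p S} : c (S k).head? = false → Run (.loop k c p) S S 1
  | loop1 {k c p S S' S'' n m} : c (S k).head? = true → Run p S S' n →
      Run (.loop k c p) S' S'' m → Run (.loop k c p) S S'' (n + m + 1)

lemma Run.length_le {p : Prog K} {S S' : K → List Bool} {n : ℕ} (h : Run p S S' n) (k : K) :
    (S' k).length ≤ (S k).length + n := by
  induction h with
  | skip S => omega
  | push k' b S => by_cases hk : k = k' <;> simp [update, hk]
  | pop k' S => by_cases hk : k = k' <;> simp [update, hk]; omega
  | seq _ _ ih1 ih2 => omega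
  | brt _ _ ih => omega
  | brf _ _ ih => omega
  | loop0 _ => omega
  | loop1 _ _ _ ih1 ih2 => omega

/-- Labels of the compiled machine. -/
def Lbl {K : Type} : Prog K → Type
  | .skip => Unit
  | .push _ _ => Unit
  | .pop _ => Unit
  | .seq p q => Lbl p ⊕ Lbl q
  | .br _ _ p q => Option (Lbl p ⊕ Lbl q)
  | .loop _ _ p => Option (Lbl p)

/-- There are finitely many labels. -/
@[reducible] def Lbl.fintype {K : Type} : ∀ p : Prog K, Fintype (Lbl p)
  | .skip => inferInstanceAs (Fintype Unit)
  | .push _ _ => inferInstanceAs (Fintype Unit)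
  | .pop _ => inferInstanceAs (Fintype Unit)
  | .seq p q => @instFintypeSum _ _ (Lbl.fintype p) (Lbl.fintype q)
  | .br _ _ p q => @instFintypeOption _ (@instFintypeSum _ _ (Lbl.fintype p) (Lbl.fintype q))
  | .loop _ _ p => @instFintypeOption _ (Lbl.fintype p)

/-- The entry label. -/
def entry {K : Type} : ∀ p : Prog K, Lbl p
  | .skip => ()
  | .push _ _ => ()
  | .pop _ => ()
  | .seq p _ => Sum.inl (entry p)
  | .br _ _ _ _ => none
  | .loop _ _ _ => none

/-- Statements of the target machine. -/
abbrev St (K Λ : Type) : Type := TM2.Stmt (fun _ : K => Bool) Λ (Option Bool)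

/-- The compiled code. -/
def code {K Λ : Type} : ∀ (p : Prog K), (Lbl p → Λ) → St K Λ → Lbl p → St K Λ
  | .skip, _, nx, _ => nx
  | .push k b, _, nx, _ => .push k (fun _ => b) nx
  | .pop k, _, nx, _ => .pop k (fun _ _ => none) nx
  | .seq p q, e, _, .inl l =>
      code p (fun l => e (.inl l)) (.goto fun _ => e (.inr (entry q))) l
  | .seq _ q, e, nx, .inr l => code q (fun l => e (.inr l)) nx l
  | .br k c p q, e, _, none => .peek k (fun _ o => o) (.branch c
      (.load (fun _ => none) (.goto fun _ => e (some (.inl (entry p)))))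
      (.load (fun _ => none) (.goto fun _ => e (some (.inr (entry q))))))
  | .br _ _ p _, e, nx, some (.inl l) => code p (fun l => e (some (.inl l))) nx l
  | .br _ _ _ q, e, nx, some (.inr l) => code q (fun l => e (some (.inr l))) nx l
  | .loop k c p, e, nx, none => .peek k (fun _ o => o) (.branch c
      (.load (fun _ => none) (.goto fun _ => e (some (entry p))))
      (.load (fun _ => none) nx))
  | .loop _ _ p, e, _, some l => code p (fun l => e (some l)) (.goto fun _ => e none) l

/-- Iterated steps. -/
def steps {Λ : Type} (M : Λ → St K Λ) (n : ℕ)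
    (c : Option (TM2.Cfg (fun _ : K => Bool) Λ (Option Bool))) :
    Option (TM2.Cfg (fun _ : K => Bool) Λ (Option Bool)) :=
  (flip bind (TM2.step M))^[n] c

lemma steps_add {Λ : Type} (M : Λ → St K Λ) (n m : ℕ) (c) :
    steps M (n + m) c = steps M m (steps M n c) := by
  unfold steps
  rw [add_comm, iterate_add_apply]

lemma steps_one {Λ : Type} (M : Λ → St K Λ) (l : Λ) (v : Option Bool) (S : K → List Bool) :
    steps M 1 (some ⟨some l, v, S⟩) = some (TM2.stepAux (M l) v S) := rfl

theorem Run.sim {Λ : Type} (M : Λ → St K Λ) {p : Prog K} {S S' : K → List Bool} {n : ℕ}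
    (h : Run p S S' n) : ∀ (e : Lbl p → Λ) (nx : St K Λ), (∀ l, M (e l) = code p e nx l) →
      steps M n (some ⟨some (e (entry p)), none, S⟩) = some (TM2.stepAux nx none S') := by
  induction h with
  | skip S => intro e nx hM; rw [steps_one, hM]; rfl
  | push k b S => intro e nx hM; rw [steps_one, hM]; rfl
  | pop k S => intro e nx hM; rw [steps_one, hM]; rfl
  | @seq p q S S' S'' n m _ _ ih1 ih2 =>
    intro e nx hM
    rw [steps_add]
    have h1 := ih1 (fun l => e (.inl l)) _ (fun l => hM (.inl l))
    have h2 := ih2 (fun l => e (.inr l)) nx (fun l => hM (.inr l))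
    exact (congrArg _ h1).trans h2
  | @brt k c p q S S' n hc _ ih =>
    intro e nx hM
    rw [add_comm, steps_add, steps_one, hM]
    have h1 := ih (fun l => e (some (.inl l))) nx (fun l => hM (some (.inl l)))
    simp only [entry, code, TM2.stepAux, hc, cond_true]
    exact h1
  | @brf k c p q S S' n hc _ ih =>
    intro e nx hM
    rw [add_comm, steps_add, steps_one, hM]
    have h1 := ih (fun l => e (some (.inr l))) nx (fun l => hM (some (.inr l)))
    simp only [entry, code, TM2.stepAux, hc, cond_false]
    exact h1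
  | @loop0 k c p S hc =>
    intro e nx hM
    rw [steps_one, hM]
    simp only [entry, code, TM2.stepAux, hc, cond_false]
  | @loop1 k c p S S' S'' n m hc _ _ ih1 ih2 =>
    intro e nx hM
    rw [add_comm, steps_add, steps_add, steps_one, hM]
    have h1 := ih1 (fun l => e (some l)) _ (fun l => hM (some l))
    have h2 := ih2 e nx hM
    simp only [entry, code, TM2.stepAux, hc, cond_true]
    exact (congrArg _ h1).trans h2

/-- The state with `x` on the distinguished stack and all other stacks empty. -/
def io {A : Type} (x : List Bool) : Option A → List Bool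
  | none => x
  | some _ => []

/-- `y a` is computed from `x a` in time polynomial in the length of `x a`. -/
def Rel {α : Type} (x y : α → List Bool) : Prop :=
  ∃ (A : Type) (_ : Fintype A) (_ : DecidableEq A) (p : Prog (Option A)) (P : Polynomial ℕ),
    ∀ a, ∃ n ≤ P.eval (x a).length, Run p (io (x a)) (io (y a)) n

theorem Rel.computable {α β : Type} {ea : α → List Bool} {eb : β → List Bool} {f : α → β}
    (h : Rel ea fun a => eb (f a)) : Crest.Complexity.PolyTimeComputable ea eb f := by
  obtain ⟨A, _, _, p, P, h⟩ := h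
  let _ := Lbl.fintype p
  let tm : FinTM2 :=
    { K := Option A, k₀ := none, k₁ := none, Γ := fun _ => Bool, Λ := Lbl p, main := entry p,
      σ := Option Bool, initialState := none, m := code p id .halt }
  choose n hn hr using h
  refine ⟨⟨⟨tm, Equiv.refl _, Equiv.refl _⟩, P, fun a => ⟨⟨n a, ?_⟩, hn a⟩⟩⟩
  have h1 := (hr a).sim (code p id .halt) id .halt (fun _ => rfl)
  have e1 : ∀ x : List Bool, initList tm x = ⟨some (entry p), none, io x⟩ := by
    intro x
    simp only [initList, tm]
    congr 1
    funext k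
    cases k <;> simp [io]
  have e2 : ∀ x : List Bool, haltList tm x = ⟨none, none, io x⟩ := by
    intro x
    simp only [haltList, tm]
    congr 1
    funext k
    cases k <;> simp [io]
  have e3 : ∀ x : List Bool, List.map (Equiv.refl Bool).invFun x = x := fun x => by simp
  erw [e3, e3, Option.map_some, e1, e2]
  exact h1

/-! ### Renaming stacks -/

/-- Renaming of stacks. -/
def Prog.map {K K' : Type} (f : K → K') : Prog K → Prog K'
  | .skip => .skip
  | .push k b => .push (f k) b
  | .pop k => .pop (f k)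
  | .seq p q => .seq (p.map f) (q.map f)
  | .br k c p q => .br (f k) c (p.map f) (q.map f)
  | .loop k c p => .loop (f k) c (p.map f)

lemma Run.map {K' : Type} [DecidableEq K'] {f : K → K'} (hf : Injective f) {p : Prog K}
    {S S' : K → List Bool} {n : ℕ} (h : Run p S S' n) : ∀ T : K' → List Bool,
      (∀ k, T (f k) = S k) → ∃ T', Run (p.map f) T T' n ∧ (∀ k, T' (f k) = S' k) ∧
        ∀ k', (∀ k, f k ≠ k') → T' k' = T k' := by
  induction h with
  | skip S => exact fun T hT => ⟨T, .skip T, hT, fun _ _ => rfl⟩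
  | push k b S =>
    refine fun T hT => ⟨_, .push _ _ T, fun k' => ?_, fun k' hk' => ?_⟩
    · by_cases hk : k' = k
      · simp [hk, hT]
      · simp [update, hk, hf.ne hk, hT]
    · simp [update, (hk' k).symm]
  | pop k S =>
    refine fun T hT => ⟨_, .pop _ T, fun k' => ?_, fun k' hk' => ?_⟩
    · by_cases hk : k' = k
      · simp [hk, hT]
      · simp [update, hk, hf.ne hk, hT]
    · simp [update, (hk' k).symm]
  | seq _ _ ih1 ih2 =>
    intro T hT
    obtain ⟨T1, h1, h1', h1''⟩ := ih1 T hT
    obtain ⟨T2, h2, h2', h2''⟩ := ih2 T1 h1'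
    exact ⟨T2, .seq h1 h2, h2', fun k' hk' => (h2'' k' hk').trans (h1'' k' hk')⟩
  | brt hc _ ih =>
    intro T hT
    obtain ⟨T1, h1, h1', h1''⟩ := ih T hT
    exact ⟨T1, .brt (by rwa [hT]) h1, h1', h1''⟩
  | brf hc _ ih =>
    intro T hT
    obtain ⟨T1, h1, h1', h1''⟩ := ih T hT
    exact ⟨T1, .brf (by rwa [hT]) h1, h1', h1''⟩
  | loop0 hc => exact fun T hT => ⟨T, .loop0 (by rwa [hT]), hT, fun _ _ => rfl⟩
  | loop1 hc _ _ ih1 ih2 =>
    intro T hT
    obtain ⟨T1, h1, h1', h1''⟩ := ih1 T hT
    obtain ⟨T2, h2, h2', h2''⟩ := ih2 T1 h1'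
    exact ⟨T2, .loop1 (by rwa [hT]) h1 h2, h2', fun k' hk' => (h2'' k' hk').trans (h1'' k' hk')⟩

/-- Running within a time bound. -/
def RunLe (p : Prog K) (S S' : K → List Bool) (m : ℕ) : Prop := ∃ n ≤ m, Run p S S' n

lemma RunLe.mono {p : Prog K} {S S' : K → List Bool} {m m' : ℕ} (h : RunLe p S S' m)
    (hm : m ≤ m') : RunLe p S S' m' := by
  obtain ⟨n, hn, h⟩ := h
  exact ⟨n, hn.trans hm, h⟩

lemma RunLe.cast {p : Prog K} {S S' S'' : K → List Bool} {m m' : ℕ} (h : RunLe p S S' m)
    (hS : S' = S'') (hm : m ≤ m') : RunLe p S S'' m' := hS ▸ h.mono hm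

lemma RunLe.seq {p q : Prog K} {S S' S'' : K → List Bool} {m m' : ℕ} (h : RunLe p S S' m)
    (h' : RunLe q S' S'' m') : RunLe (.seq p q) S S'' (m + m') := by
  obtain ⟨n, hn, h⟩ := h
  obtain ⟨n', hn', h'⟩ := h'
  exact ⟨n + n', by omega, .seq h h'⟩

lemma RunLe.skip (S : K → List Bool) : RunLe .skip S S 1 := ⟨1, le_rfl, .skip S⟩

lemma RunLe.push (k : K) (b : Bool) (S : K → List Bool) :
    RunLe (.push k b) S (update S k (b :: S k)) 1 := ⟨1, le_rfl, .push k b S⟩

lemma RunLe.pop (k : K) (S : K → List Bool) :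
    RunLe (.pop k) S (update S k (S k).tail) 1 := ⟨1, le_rfl, .pop k S⟩

lemma RunLe.brt {k : K} {c} {p q : Prog K} {S S' : K → List Bool} {m : ℕ}
    (hc : c (S k).head? = true) (h : RunLe p S S' m) : RunLe (.br k c p q) S S' (m + 1) := by
  obtain ⟨n, hn, h⟩ := h
  exact ⟨n + 1, by omega, .brt hc h⟩

lemma RunLe.brf {k : K} {c} {p q : Prog K} {S S' : K → List Bool} {m : ℕ}
    (hc : c (S k).head? = false) (h : RunLe q S S' m) : RunLe (.br k c p q) S S' (m + 1) := by
  obtain ⟨n, hn, h⟩ := h
  exact ⟨n + 1, by omega, .brf hc h⟩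

lemma RunLe.loop0 {k : K} {c} {p : Prog K} {S : K → List Bool}
    (hc : c (S k).head? = false) : RunLe (.loop k c p) S S 1 := ⟨1, le_rfl, .loop0 hc⟩

lemma RunLe.loop1 {k : K} {c} {p : Prog K} {S S' S'' : K → List Bool} {m m' : ℕ}
    (hc : c (S k).head? = true) (h : RunLe p S S' m) (h' : RunLe (.loop k c p) S' S'' m') :
    RunLe (.loop k c p) S S'' (m + m' + 1) := by
  obtain ⟨n, hn, h⟩ := h
  obtain ⟨n', hn', h'⟩ := h'
  exact ⟨n + n' + 1, by omega, .loop1 hc h h'⟩

/-- Calling a subroutine on the stack `r`, with scratch stacks `e`. -/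
lemma RunLe.call {A : Type} [DecidableEq A] {p : Prog (Option A)} {x y : List Bool} {m : ℕ}
    (h : RunLe p (io x) (io y) m) (r : K) (e : A → K) (he : Injective e) (hr : ∀ a, e a ≠ r)
    (T : K → List Bool) (hT : T r = x) (hT' : ∀ a, T (e a) = []) :
    RunLe (p.map fun o => o.elim r e) T (update T r y) m := by
  obtain ⟨n, hn, h⟩ := h
  have hf : Injective fun o : Option A => o.elim r e := by
    rintro (_ | a) (_ | b) hab
    · rfl
    · exact absurd hab.symm (hr b)
    · exact absurd hab (hr a)
    · exact congrArg some (he hab)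
  obtain ⟨T', h1, h2, h3⟩ := h.map hf T (by rintro (_ | a) <;> simp [io, hT, hT'])
  refine ⟨n, hn, ?_⟩
  convert h1
  funext k
  by_cases hk : k = r
  · subst hk
    simpa [io] using (h2 none).symm
  · rw [update_of_ne hk]
    by_cases hk' : ∃ a, e a = k
    · obtain ⟨a, rfl⟩ := hk'
      rw [hT']
      exact (h2 (some a)).symm
    · refine (h3 k ?_).symm
      rintro (_ | a) h
      · exact hk h.symm
      · exact hk' ⟨a, h⟩

end Crest.Agent.PT
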