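import Crest.Agent.PT.Typed

/-! Binary arithmetic is polynomial-time. -/

set_option autoImplicit false
set_option linter.dupNamespace false

namespace Crest.Agent.PT

open Polynomial

variable {α β γ σ : Type} [Enc α] [Enc β] [Enc γ] [Enc σ]

lemma sz_nat_le {m n : ℕ} : sz m ≤ n ↔ m < 2 ^ n := by rw [sz_nat, Nat.size_le]
lemma lt_two_pow_sz (m : ℕ) : m < 2 ^ sz m := sz_nat_le.1 le_rfl
lemma sz_nat_mono {m n : ℕ} (h : m ≤ n) : sz m ≤ sz n :=
  sz_nat_le.2 (h.trans_lt (lt_two_pow_sz n))
lemma sz_bit (b : Bool) (n : ℕ) : sz (Nat.bit b n) ≤ sz n + 1 := by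
  have := lt_two_pow_sz n
  rw [sz_nat_le, Nat.bit_val, pow_succ]
  cases b <;> simp <;> omega
lemma sz_add (m n : ℕ) : sz (m + n) ≤ sz m + sz n + 1 := by
  have h1 := lt_two_pow_sz m
  have h2 := lt_two_pow_sz n
  have h3 : 2 ^ sz m ≤ 2 ^ (sz m + sz n) := Nat.pow_le_pow_right (by norm_num) (by omega)
  have h4 : 2 ^ sz n ≤ 2 ^ (sz m + sz n) := Nat.pow_le_pow_right (by norm_num) (by omega)
  rw [sz_nat_le, pow_succ]
  omega
lemma sz_mul (m n : ℕ) : sz (m * n) ≤ sz m + sz n := by
  rw [sz_nat_le, pow_add]
  exact Nat.mul_lt_mul'' (lt_two_pow_sz m) (lt_two_pow_sz n)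

/-- Appending binary digits. -/
def V (n : ℕ) (l : List Bool) : ℕ := l.foldl (fun n b => Nat.bit b n) n

@[simp] lemma V_nil (n : ℕ) : V n [] = n := rfl
@[simp] lemma V_cons (n : ℕ) (b : Bool) (l : List Bool) : V n (b :: l) = V (Nat.bit b n) l := rfl

lemma V_bits (n : ℕ) : V 0 n.bits.reverse = n := by
  induction n using Nat.binaryRec' with
  | zero => simp
  | bit b n h ih =>
    rw [Nat.bits_append_bit n b h, List.reverse_cons, V, List.foldl_append]
    exact congrArg _ ih

/-- Integer version. -/
def VZ (z : ℤ) (l : List Bool) : ℤ := l.foldl (fun n b => 2 * n + b.toNat) z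

lemma VZ_natCast (n : ℕ) (l : List Bool) : VZ n l = V n l := by
  induction l generalizing n with
  | nil => rfl
  | cons b l ih =>
    rw [V_cons, ← ih, Nat.bit_val]
    simp [VZ]

lemma VZ_neg {z : ℤ} (hz : z < 0) (l : List Bool) : VZ z l < 0 := by
  induction l generalizing z with
  | nil => exact hz
  | cons b l ih => exact ih (by cases b <;> simp <;> omega)

namespace PT

@[fun_prop] lemma bits {f : α → ℕ} (hf : PT f) : PT fun a => (f a).bits :=
  (enc' (α := ℕ)).comp hf

lemma of_bits {f : α → ℕ} (hf : PT fun a => (f a).bits) : PT f := of_enc' hf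

@[fun_prop] lemma div2 {f : α → ℕ} (hf : PT f) : PT fun a => (f a).div2 :=
  of_bits (hf.bits.tail.congr fun a => (Nat.div2_bits_eq_tail _).symm)

@[fun_prop] lemma bodd {f : α → ℕ} (hf : PT f) : PT fun a => (f a).bodd :=
  (hf.bits.headD (const false)).congr fun a => by
    rw [Nat.bodd_eq_bits_head]; cases (f a).bits <;> rfl

lemma isZero {f : α → ℕ} (hf : PT f) : PT fun a => decide (f a = 0) :=
  hf.bits.isEmpty.congr fun a => by
    induction f a using Nat.binaryRec' with
    | zero => simp
    | bit b n h _ =>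
      rw [Nat.bits_append_bit n b h]
      simpa [Nat.bit_eq_zero_iff] using h

@[fun_prop] lemma bit {b : α → Bool} {f : α → ℕ} (hb : PT b) (hf : PT f) :
    PT fun a => Nat.bit (b a) (f a) := by
  refine of_bits (((hf.isZero.and hb.not).cond (const []) (hb.cons hf.bits)).congr fun a => ?_)
  by_cases h : f a = 0 → b a = true
  · rw [Nat.bits_append_bit _ _ h]
    by_cases h' : f a = 0
    · simp [h h']
    · simp [h']
  · simp only [Classical.not_imp, Bool.not_eq_true] at h
    simp [h.1, h.2]

@[fun_prop] lemma toV {f : α → ℕ} {l : α → List Bool} (hf : PT f) (hl : PT l) :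
    PT fun a => V (f a) (l a) :=
  foldl_add (f := fun _ n b => Nat.bit b n) (by fun_prop) hl hf (g := fun _ _ => 1) (by fun_prop)
    fun _ s b => sz_bit b s

@[fun_prop] lemma xor {c d : α → Bool} (hc : PT c) (hd : PT d) : PT fun a => Bool.xor (c a) (d a) :=
  (hc.cond hd.not hd).congr fun a => by cases c a <;> simp

/-- One step of binary addition. -/
def addStep (s : ℕ × ℕ × Bool × List Bool) : ℕ × ℕ × Bool × List Bool :=
  (s.1.div2, s.2.1.div2, (s.1.bodd && s.2.1.bodd || s.2.2.1 && (s.1.bodd || s.2.1.bodd)),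
    Bool.xor (Bool.xor s.1.bodd s.2.1.bodd) s.2.2.1 :: s.2.2.2)

/-- One step of binary subtraction. -/
def subStep (s : ℕ × ℕ × Bool × List Bool) : ℕ × ℕ × Bool × List Bool :=
  (s.1.div2, s.2.1.div2, (!s.1.bodd && s.2.1.bodd || s.2.2.1 && (!s.1.bodd || s.2.1.bodd)),
    Bool.xor (Bool.xor s.1.bodd s.2.1.bodd) s.2.2.1 :: s.2.2.2)

lemma sz_step (x y : ℕ) (c c' d : Bool) (l : List Bool) :
    sz (x.div2, y.div2, c', d :: l) ≤ sz (x, y, c, l) + 5 := by
  have h1 : sz x.div2 ≤ sz x := sz_nat_mono (by rw [Nat.div2_val]; omega)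
  have h2 : sz y.div2 ≤ sz y := sz_nat_mono (by rw [Nat.div2_val]; omega)
  have h3 := sz_bool c'
  have h4 := sz_bool d
  simp only [sz_prod, sz_cons]
  omega

lemma addStep_spec (l : List Bool) (x y : ℕ) (c : Bool) (acc : List Bool)
    (hx : x < 2 ^ l.length) (hy : y < 2 ^ l.length) :
    V (Nat.bit (l.foldl (fun s _ => addStep s) (x, y, c, acc)).2.2.1 0)
      (l.foldl (fun s _ => addStep s) (x, y, c, acc)).2.2.2 = V (x + y + c.toNat) acc := by
  induction l generalizing x y c acc with
  | nil =>
    obtain rfl : x = 0 := by simpa using hx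
    obtain rfl : y = 0 := by simpa using hy
    simp [Nat.bit_val]
  | cons b l ih =>
    simp only [List.length_cons, pow_succ] at hx hy
    rw [List.foldl_cons, addStep]
    dsimp only
    rw [ih _ _ _ _ (by rw [Nat.div2_val]; omega) (by rw [Nat.div2_val]; omega), V_cons]
    congr 1
    have h1 := Nat.bodd_add_div2 x
    have h2 := Nat.bodd_add_div2 y
    rw [Nat.bit_val]
    revert h1 h2
    cases x.bodd <;> cases y.bodd <;> cases c <;> simp <;> omega

lemma subStep_spec (l : List Bool) (x y : ℕ) (c : Bool) (acc : List Bool)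
    (hx : x < 2 ^ l.length) (hy : y < 2 ^ l.length) :
    VZ (-((l.foldl (fun s _ => subStep s) (x, y, c, acc)).2.2.1.toNat : ℤ))
      (l.foldl (fun s _ => subStep s) (x, y, c, acc)).2.2.2 = VZ (x - y - c.toNat) acc := by
  induction l generalizing x y c acc with
  | nil =>
    obtain rfl : x = 0 := by simpa using hx
    obtain rfl : y = 0 := by simpa using hy
    simp
  | cons b l ih =>
    simp only [List.length_cons, pow_succ] at hx hy
    rw [List.foldl_cons, subStep]
    dsimp only
    rw [ih _ _ _ _ (by rw [Nat.div2_val]; omega) (by rw [Nat.div2_val]; omega), VZ,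
      List.foldl_cons, VZ]
    congr 1
    have h1 := Nat.bodd_add_div2 x
    have h2 := Nat.bodd_add_div2 y
    revert h1 h2
    cases x.bodd <;> cases y.bodd <;> cases c <;> simp <;> omega

lemma lt_bits_left (x y : ℕ) : x < 2 ^ (x.bits ++ y.bits).length :=
  (lt_two_pow_sz x).trans_le (Nat.pow_le_pow_right (by norm_num) (by simp [sz, enc]))

lemma lt_bits_right (x y : ℕ) : y < 2 ^ (x.bits ++ y.bits).length :=
  (lt_two_pow_sz y).trans_le (Nat.pow_le_pow_right (by norm_num) (by simp [sz, enc]))

@[fun_prop] lemma add {f g : α → ℕ} (hf : PT f) (hg : PT g) : PT fun a => f a + g a := by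
  have h : PT fun a => ((f a).bits ++ (g a).bits).foldl (fun s _ => addStep s)
      (f a, g a, false, []) :=
    foldl_add (f := fun _ s _ => addStep s) (by unfold addStep; fun_prop) (by fun_prop)
      (by fun_prop) (g := fun _ _ => 5) (by fun_prop) fun _ s _ => sz_step _ _ _ _ _ _
  exact ((h.snd.snd.fst.bit (const 0)).toV h.snd.snd.snd).congr fun a =>
    addStep_spec _ _ _ _ _ (lt_bits_left _ _) (lt_bits_right _ _)

lemma sub_aux {f g : α → ℕ} (hf : PT f) (hg : PT g) :
    ∃ (c : α → Bool) (d : α → ℕ), PT c ∧ PT d ∧ ∀ a, (c a = true ↔ f a < g a) ∧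
      (c a = false → d a = f a - g a) := by
  have h : PT fun a => ((f a).bits ++ (g a).bits).foldl (fun s _ => subStep s)
      (f a, g a, false, []) :=
    foldl_add (f := fun _ s _ => subStep s) (by unfold subStep; fun_prop) (by fun_prop)
      (by fun_prop) (g := fun _ _ => 5) (by fun_prop) fun _ s _ => sz_step _ _ _ _ _ _
  refine ⟨_, _, h.snd.snd.fst, (const 0).toV h.snd.snd.snd, fun a => ?_⟩
  have h1 := subStep_spec _ (f a) (g a) false [] (lt_bits_left _ _) (lt_bits_right _ _)
  generalize ((f a).bits ++ (g a).bits).foldl (fun s _ => subStep s) (f a, g a, false, []) = r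
    at h1 ⊢
  obtain ⟨_, _, c, acc⟩ := r
  cases c
  · have h2 := VZ_natCast 0 acc
    simp only [VZ, Bool.toNat_false, List.foldl_nil, Nat.cast_zero, neg_zero] at h1 h2
    simp only [Bool.false_eq_true, false_iff, forall_const]
    omega
  · have h2 := VZ_neg (z := -1) (by norm_num) acc
    simp only [VZ, Bool.toNat_false, Bool.toNat_true, List.foldl_nil, Nat.cast_zero,
      Nat.cast_one] at h1 h2
    simp only [true_iff, Bool.true_eq_false, false_imp_iff, and_true]
    omega

@[fun_prop] lemma lt {f g : α → ℕ} {inst : ∀ a, Decidable (f a < g a)} (hf : PT f) (hg : PT g) :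
    PT fun a => @decide (f a < g a) (inst a) := by
  obtain ⟨c, d, hc, -, h⟩ := hf.sub_aux hg
  exact hc.congr fun a => by simp [← (h a).1]

@[fun_prop] lemma le {f g : α → ℕ} {inst : ∀ a, Decidable (f a ≤ g a)} (hf : PT f) (hg : PT g) :
    PT fun a => @decide (f a ≤ g a) (inst a) :=
  (hg.lt (inst := fun _ => inferInstance) hf).not.congr fun a => by
    by_cases h : f a ≤ g a <;> simp [h]; omega

@[fun_prop] lemma eq {f g : α → ℕ} {inst : ∀ a, Decidable (f a = g a)} (hf : PT f) (hg : PT g) :
    PT fun a => @decide (f a = g a) (inst a) :=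
  ((hg.le (inst := fun _ => inferInstance) hf).and
    (hf.le (inst := fun _ => inferInstance) hg)).congr fun a => by
    by_cases h : f a = g a <;> simp [h]; omega

@[fun_prop] lemma decide_and {p q : α → Prop} {inst : ∀ a, Decidable (p a ∧ q a)}
    [DecidablePred p] [DecidablePred q] (hp : PT fun a => decide (p a))
    (hq : PT fun a => decide (q a)) : PT fun a => @decide (p a ∧ q a) (inst a) :=
  (hp.and hq).congr fun a => by simp

@[fun_prop] lemma decide_or {p q : α → Prop} {inst : ∀ a, Decidable (p a ∨ q a)}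
    [DecidablePred p] [DecidablePred q] (hp : PT fun a => decide (p a))
    (hq : PT fun a => decide (q a)) : PT fun a => @decide (p a ∨ q a) (inst a) :=
  (hp.or hq).congr fun a => by simp

@[fun_prop] lemma decide_not {p : α → Prop} {inst : ∀ a, Decidable (¬ p a)}
    [DecidablePred p] (hp : PT fun a => decide (p a)) : PT fun a => @decide (¬ p a) (inst a) :=
  hp.not.congr fun a => by simp

@[fun_prop] lemma decide_ne {f g : α → ℕ} {inst : ∀ a, Decidable (f a ≠ g a)} (hf : PT f)
    (hg : PT g) : PT fun a => @decide (f a ≠ g a) (inst a) :=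
  (hf.eq (inst := fun _ => inferInstance) hg).not.congr fun a => by simp

@[fun_prop] lemma decide_true {c : α → Bool} {inst : ∀ a, Decidable (c a = true)} (hc : PT c) :
    PT fun a => @decide (c a = true) (inst a) :=
  hc.congr fun a => by simp

@[fun_prop] lemma sub {f g : α → ℕ} (hf : PT f) (hg : PT g) : PT fun a => f a - g a := by
  obtain ⟨c, d, hc, hd, h⟩ := hf.sub_aux hg
  refine (hc.cond (const 0) hd).congr fun a => ?_
  cases hc : c a
  · exact (h a).2 hc
  · have := (h a).1.1 hc
    simp; omega

@[fun_prop] lemma mul {f g : α → ℕ} (hf : PT f) (hg : PT g) : PT fun a => f a * g a := by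
  have h : PT fun a => (g a).bits.reverse.foldl
      (fun n b => Nat.bit false n + _root_.cond b (f a) 0) 0 :=
    foldl_add (f := fun a n b => Nat.bit false n + _root_.cond b (f a) 0) (by fun_prop)
      (by fun_prop) (by fun_prop) (g := fun a _ => sz (f a) + 2) (by fun_prop) fun a s b => by
        have h1 := sz_add (Nat.bit false s) (_root_.cond b (f a) 0)
        have h2 := sz_bit false s
        have h3 : sz (_root_.cond b (f a) 0) ≤ sz (f a) := sz_nat_mono (by cases b <;> simp)
        omega
  refine h.congr fun a => ?_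
  have key : ∀ (l : List Bool) (m : ℕ), l.foldl
      (fun n b => Nat.bit false n + _root_.cond b (f a) 0) (f a * m) = f a * V m l := by
    intro l
    induction l with
    | nil => intro m; rfl
    | cons b l ih =>
      intro m
      rw [List.foldl_cons, V_cons, ← ih]
      congr 1
      cases b <;> simp [Nat.bit_val] <;> ring
  simpa [V_bits] using key (g a).bits.reverse 0

/-- One step of long division. -/
def divStep (y : ℕ) (s : ℕ × ℕ) (b : Bool) : ℕ × ℕ :=
  if y ≤ Nat.bit b s.2 then (Nat.bit true s.1, Nat.bit b s.2 - y)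
  else (Nat.bit false s.1, Nat.bit b s.2)

lemma divStep_spec {y : ℕ} (hy : 0 < y) (l : List Bool) (m : ℕ) :
    l.foldl (divStep y) (m / y, m % y) = (V m l / y, V m l % y) := by
  induction l generalizing m with
  | nil => rfl
  | cons b l ih =>
    rw [List.foldl_cons, V_cons, ← ih]
    congr 1
    have h1 := Nat.div_add_mod m y
    have h2 := Nat.mod_lt m hy
    have h3 : b.toNat ≤ 1 := by cases b <;> simp
    unfold divStep
    simp only [Nat.bit_val, Bool.toNat_true, Bool.toNat_false]
    split_ifs with h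
    · have := (Nat.div_mod_unique (a := 2 * m + b.toNat) (d := 2 * (m / y) + 1)
        (c := 2 * (m % y) + b.toNat - y) hy).2 ⟨by
          rw [mul_add, mul_left_comm]; omega, by omega⟩
      rw [this.1, this.2]
    · have := (Nat.div_mod_unique (a := 2 * m + b.toNat) (d := 2 * (m / y) + 0)
        (c := 2 * (m % y) + b.toNat) hy).2 ⟨by
          rw [mul_add, mul_left_comm]; omega, by omega⟩
      rw [this.1, this.2]

lemma divMod {f g : α → ℕ} (hf : PT f) (hg : PT g) : PT fun a => (f a / g a, f a % g a) := by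
  have h : PT fun a => (f a).bits.reverse.foldl (divStep (g a)) (0, 0) :=
    foldl_add (f := fun a => divStep (g a)) (by unfold divStep; fun_prop)
      (by fun_prop) (by fun_prop) (g := fun a _ => 3) (by fun_prop) fun a s b => by
        obtain ⟨q, r⟩ := s
        have h1 := sz_bit true q
        have h2 := sz_bit false q
        have h3 := sz_bit b r
        have h4 : sz (Nat.bit b r - g a) ≤ sz (Nat.bit b r) := sz_nat_mono (Nat.sub_le _ _)
        unfold divStep
        split_ifs <;> simp only [sz_prod] <;> omega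
  refine (PT.ite (p := fun a => g a = 0) hg.isZero ((const 0).pair hf) h).congr fun a => ?_
  split_ifs with h0
  · simp [h0]
  · simpa [V_bits] using divStep_spec (Nat.pos_of_ne_zero h0) (f a).bits.reverse 0

@[fun_prop] lemma div {f g : α → ℕ} (hf : PT f) (hg : PT g) : PT fun a => f a / g a :=
  (hf.divMod hg).fst

@[fun_prop] lemma mod {f g : α → ℕ} (hf : PT f) (hg : PT g) : PT fun a => f a % g a :=
  (hf.divMod hg).snd

@[fun_prop] lemma sum {l : α → List ℕ} (hl : PT l) : PT fun a => (l a).sum :=
  (foldl_add (f := fun _ s b => s + b) (by fun_prop) hl (const 0) (g := fun _ b => sz b + 1)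
    (by fun_prop) fun _ s b => sz_add s b).congr fun a => by rw [List.sum_eq_foldl]

@[fun_prop] lemma prod {l : α → List ℕ} (hl : PT l) : PT fun a => (l a).prod :=
  (foldl_add (f := fun _ s b => s * b) (by fun_prop) hl (const 1) (g := fun _ b => sz b)
    (by fun_prop) fun _ s b => sz_mul s b).congr fun a => by rw [List.prod_eq_foldl]

@[fun_prop] lemma length {l : α → List β} (hl : PT l) : PT fun a => (l a).length :=
  (hl.map (f := fun _ _ => 1) (const 1)).sum.congr fun a => by simp

end PT

end Crest.Agent.PT
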