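import Crest.Agent.PT.Range

/-! Parsing of unary and binary prefixes. -/

set_option autoImplicit false
set_option linter.dupNamespace false

namespace Crest.Agent.PT

open Crest.Enc

variable {α : Type} [Enc α]

lemma sz_tail_le {β : Type} [Enc β] (l : List β) : sz l.tail ≤ sz l :=
  sz_le_of_sublist (List.tail_sublist l)

/-- One step of reading a unary prefix. -/
def unStep (s : List Bool × List Unit) : List Bool × List Unit :=
  cond (s.1.headD false) (s.1.tail, () :: s.2) s

lemma unStep_spec (l : List Bool) (n : ℕ) (r : List Bool) (acc : List Unit) (h : n ≤ l.length) :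
    l.foldl (fun s _ => unStep s) (List.replicate n true ++ false :: r, acc) =
      (false :: r, List.replicate n () ++ acc) := by
  induction l generalizing n acc with
  | nil => obtain rfl : n = 0 := by simpa using h
           rfl
  | cons b l ih =>
    cases n with
    | zero => exact ih 0 acc (by simp)
    | succ n =>
      have := ih n (() :: acc) (by simpa using h)
      rw [List.foldl_cons, List.replicate_succ, List.replicate_succ']
      simpa [unStep] using this

/-- Reading a unary prefix. -/
def parseUn (x : List Bool) : Un × List Bool :=
  (Un.mk (x.foldl (fun s _ => unStep s) (x, [])).2.length,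
    (x.foldl (fun s _ => unStep s) (x, [])).1.tail)

lemma parseUn_spec (n : ℕ) (r : List Bool) :
    parseUn (List.replicate n true ++ false :: r) = (Un.mk n, r) := by
  rw [parseUn, unStep_spec _ n r [] (by simp)]
  simp

@[fun_prop] lemma PT.parseUn {f : α → List Bool} (hf : PT f) : PT fun a => parseUn (f a) := by
  have h : PT fun a => (f a).foldl (fun s _ => unStep s) (f a, []) :=
    PT.foldl_add (f := fun _ s _ => unStep s) (by unfold unStep; fun_prop) hf (by fun_prop)
      (g := fun _ _ => 1) (by fun_prop) fun _ s _ => by
        obtain ⟨x, acc⟩ := s
        have := sz_tail_le x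
        unfold unStep
        cases x.headD false <;> simp
        omega
  exact h.snd.un_length.pair h.fst.tail

/-- One step of reading a binary prefix. -/
def binStep (s : List Bool × List Bool) : List Bool × List Bool :=
  cond (s.1.headD false) (s.1.tail.tail, s.1.tail.headD false :: s.2) s

lemma binStep_spec (l u r acc : List Bool) (h : u.length ≤ l.length) :
    l.foldl (fun s _ => binStep s) ((u.map fun b => [true, b]).flatten ++ false :: r, acc) =
      (false :: r, u.reverse ++ acc) := by
  induction l generalizing u acc with
  | nil => obtain rfl : u = [] := by simpa using h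
           rfl
  | cons b l ih =>
    cases u with
    | nil => exact ih [] acc (by simp)
    | cons c u =>
      have := ih u (c :: acc) (by simpa using h)
      simpa [binStep] using this

/-- Reading a binary prefix. -/
def parseNat (x : List Bool) : ℕ × List Bool :=
  (V 0 (x.foldl (fun s _ => binStep s) (x, [])).2,
    (x.foldl (fun s _ => binStep s) (x, [])).1.tail.tail)

lemma parseNat_spec (n : ℕ) (r : List Bool) : parseNat (natCode n ++ r) = (n, r) := by
  have h : natCode n ++ r = (n.bits.map fun b => [true, b]).flatten ++ false :: (false :: r) := by
    simp [natCode]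
  have h' : n.bits.length ≤ (natCode n ++ r).length := by
    rw [h]
    generalize n.bits = u
    induction u with
    | nil => simp
    | cons b u ih => simp at ih ⊢; omega
  rw [parseNat]
  conv_lhs => enter [1, 2, 1, 2, 1]; rw [h]
  conv_lhs => enter [2, 1, 1, 1, 2, 1]; rw [h]
  rw [binStep_spec _ _ _ _ h']
  simp [V_bits]

@[fun_prop] lemma PT.parseNat {f : α → List Bool} (hf : PT f) : PT fun a => parseNat (f a) := by
  have h : PT fun a => (f a).foldl (fun s _ => binStep s) (f a, []) :=
    PT.foldl_add (f := fun _ s _ => binStep s) (by unfold binStep; fun_prop) hf (by fun_prop)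
      (g := fun _ _ => 3) (by fun_prop) fun _ s _ => by
        obtain ⟨x, acc⟩ := s
        have h1 := sz_tail_le x
        have h2 := sz_tail_le x.tail
        have h3 := sz_bool (x.tail.headD false)
        unfold binStep
        cases x.headD false <;> simp only [cond_true, cond_false, sz_prod, sz_cons] <;> omega
  exact ((PT.const 0).toV h.snd).pair h.fst.tail.tail

/-- Reading two unary numbers. -/
def parseUn2 (x : List Bool) : Un × Un := ((parseUn x).1, Un.mk (parseUn x).2.length)

lemma parseUn2_spec (n s : ℕ) :
    parseUn2 (List.replicate n true ++ false :: List.replicate s true) = (Un.mk n, Un.mk s) := by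
  simp [parseUn2, parseUn_spec]

@[fun_prop] lemma PT.parseUn2 {f : α → List Bool} (hf : PT f) : PT fun a => parseUn2 (f a) :=
  hf.parseUn.fst.pair hf.parseUn.snd.un_length

end Crest.Agent.PT
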