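import Crest.Agent.PT.Nat
import Crest.Prelude.Def_BitEnc

/-! Unary numbers, bounded sums and products, integers, and output codes. -/

set_option autoImplicit false
set_option linter.dupNamespace false

namespace Crest.Agent.PT

open Polynomial Crest.Enc

variable {α β γ σ : Type} [Enc α] [Enc β] [Enc γ] [Enc σ]

/-- Natural numbers coded in unary. -/
def Un : Type := ℕ

/-- The value of a unary number. -/
def Un.val (u : Un) : ℕ := u

/-- The unary number with a given value. -/
def Un.mk (n : ℕ) : Un := n

@[simp] lemma Un.val_mk (n : ℕ) : (Un.mk n).val = n := rfl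

instance : Enc Un := ⟨fun u => enc (List.replicate u.val ())⟩

lemma sz_replicate (n : ℕ) : sz (List.replicate n ()) = n := by
  induction n with
  | zero => rfl
  | succ n ih => simp [List.replicate_succ, ih]; omega

lemma sz_un (u : Un) : sz u = u.val := sz_replicate _

lemma map_unit {β : Type} (l : List β) : l.map (fun _ => ()) = List.replicate l.length () := by simp

lemma sz_le_of_forall {l : List α} {M : ℕ} (h : ∀ a ∈ l, sz a ≤ M) :
    sz l ≤ l.length * (2 * M + 1) := by
  induction l with
  | nil => simp
  | cons a l ih =>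
    have h1 := h a (by simp)
    have h2 := ih fun b hb => h b (by simp [hb])
    simp only [sz_cons, List.length_cons, add_mul]
    omega

@[fun_prop] lemma PB.val {f : α → Un} (h : PT f) : PB fun a => (f a).val :=
  h.pb_sz.mono fun _ => (sz_un _).ge

namespace PT

lemma replicate_val {f : α → Un} (h : PT f) : PT fun a => List.replicate (f a).val () :=
  h.of_enc fun _ => rfl

lemma un_of_replicate {t : α → ℕ} (h : PT fun a => List.replicate (t a) ()) :
    PT fun a => Un.mk (t a) := h.of_enc fun _ => rfl

@[fun_prop] lemma val {f : α → Un} (h : PT f) : PT fun a => (f a).val :=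
  h.replicate_val.length.congr fun a => by simp

lemma un_length {l : α → List β} (h : PT l) : PT fun a => Un.mk (l a).length :=
  un_of_replicate ((h.map (f := fun _ _ => ()) (const ())).congr fun _ => map_unit _)

lemma un_add {t u : α → ℕ} (ht : PT fun a => Un.mk (t a)) (hu : PT fun a => Un.mk (u a)) :
    PT fun a => Un.mk (t a + u a) :=
  un_of_replicate ((ht.replicate_val.append hu.replicate_val).congr fun a => by simp)

lemma un_mul {t u : α → ℕ} (ht : PT fun a => Un.mk (t a)) (hu : PT fun a => Un.mk (u a)) :
    PT fun a => Un.mk (t a * u a) :=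
  un_of_replicate ((ht.replicate_val.flatMap (f := fun a _ => List.replicate (u a) ())
    (hu.replicate_val.comp id'.fst)).congr fun a => by simp [List.flatMap_replicate])

lemma un_poly (P : ℕ[X]) : PT fun a : α => Un.mk (P.eval (sz a)) := by
  induction P using Polynomial.induction_on with
  | C c => simpa using const (Un.mk c)
  | add p q hp hq => simpa using hp.un_add hq
  | monomial n c h =>
    exact (h.un_mul (enc' (α := α)).un_length).congr fun a => by
      simp [sz, pow_succ, mul_assoc]

lemma rangeU_of_un {t : α → ℕ} (ht : PT fun a => Un.mk (t a)) :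
    PT fun a => (List.range (t a)).map Un.mk := by
  have key : ∀ l : List Unit, l.foldl (fun s _ => s ++ [Un.mk s.length]) [] =
      (List.range l.length).map Un.mk := by
    intro l
    induction l using List.reverseRecOn with
    | nil => rfl
    | append_singleton l b ih => simp [ih, List.range_succ]
  have h1 : PB t := PB.val ht
  refine (foldl (f := fun _ s _ => s ++ [Un.mk s.length]) (l := fun a => List.replicate (t a) ())
    (s := fun _ => []) (id'.snd.fst.append (id'.snd.fst.un_length.cons (const [])))
    ht.replicate_val (const _) (t := fun a => t a * (2 * t a + 1)) (by fun_prop)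
    fun a l' hl' => ?_).congr fun a => by simp [key]
  have h2 : l'.length ≤ t a := by simpa using hl'.length_le
  rw [key]
  refine (sz_le_of_forall (M := t a) ?_).trans (by simp only [List.length_map, List.length_range]; gcongr)
  simp only [List.mem_map, List.mem_range]
  rintro _ ⟨i, hi, rfl⟩
  rw [sz_un, Un.val_mk]
  omega

lemma rangeU {t : α → ℕ} (hb : PB t) (ht : PT t) : PT fun a => (List.range (t a)).map Un.mk := by
  obtain ⟨P, hP⟩ := hb
  refine ((rangeU_of_un (un_poly P)).filter (f := fun a i => decide (i.val < t a))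
    (by fun_prop)).congr fun a => ?_
  obtain ⟨k, hk⟩ := Nat.exists_eq_add_of_le (hP a)
  rw [hk, List.range_add, List.map_append, List.filter_append, List.filter_eq_self.2,
    List.filter_eq_nil_iff.2, List.append_nil]
  · simp
  · simp

@[fun_prop] lemma unMk {t : α → ℕ} (hb : PB t) (ht : PT t) : PT fun a => Un.mk (t a) :=
  (rangeU hb ht).un_length.congr fun a => by simp

@[fun_prop] lemma replicate {t : α → ℕ} {b : α → β} (hb : PB t) (ht : PT t) (h : PT b) :
    PT fun a => List.replicate (t a) (b a) :=
  ((rangeU hb ht).map (f := fun a _ => b a) (h.comp id'.fst)).congr fun a => by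
    simp [Function.comp_def]

@[fun_prop] lemma pow {f t : α → ℕ} (hf : PT f) (hb : PB t) (ht : PT t) :
    PT fun a => f a ^ t a :=
  (replicate hb ht hf).prod.congr fun a => by simp

end PT

/-- Concatenation over an initial segment of the natural numbers. -/
def flatRange {β : Type} (t : ℕ) (f : ℕ → List β) : List β := (List.range t).flatMap f

/-- Tabulation over an initial segment of the natural numbers. -/
def mapRange {β : Type} (t : ℕ) (f : ℕ → β) : List β := (List.range t).map f

lemma flatten_ofFn {β : Type} (t : ℕ) (f : ℕ → List β) :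
    (List.ofFn fun i : Fin t => f i).flatten = flatRange t f := by
  rw [flatRange, List.flatMap_def, List.ofFn_eq_map, ← List.map_coe_finRange_eq_range,
    List.map_map]
  rfl

namespace PT

@[fun_prop] lemma mapRange {t : α → ℕ} {f : α → ℕ → β} (hb : PB t) (ht : PT t)
    (hf : PT fun x : α × Un => f x.1 x.2.val) : PT fun a => mapRange (t a) (f a) :=
  ((rangeU hb ht).map (f := fun a i => f a i.val) hf).congr fun a => by
    simp [Crest.Agent.PT.mapRange, Function.comp_def]

@[fun_prop] lemma flatRange {t : α → ℕ} {f : α → ℕ → List β} (hb : PB t) (ht : PT t)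
    (hf : PT fun x : α × Un => f x.1 x.2.val) : PT fun a => flatRange (t a) (f a) :=
  (mapRange hb ht hf).flatten.congr fun a => by
    simp [Crest.Agent.PT.mapRange, Crest.Agent.PT.flatRange, List.flatMap_def]

@[fun_prop] lemma sum_range {t : α → ℕ} {f : α → ℕ → ℕ} (hb : PB t) (ht : PT t)
    (hf : PT fun x : α × Un => f x.1 x.2.val) :
    PT fun a => Finset.sum (Finset.range (t a)) (f a) :=
  (mapRange hb ht hf).sum.congr fun _ => rfl

@[fun_prop] lemma prod_range {t : α → ℕ} {f : α → ℕ → ℕ} (hb : PB t) (ht : PT t)
    (hf : PT fun x : α × Un => f x.1 x.2.val) :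
    PT fun a => Finset.prod (Finset.range (t a)) (f a) :=
  (mapRange hb ht hf).prod.congr fun _ => rfl

@[fun_prop] lemma natCode {f : α → ℕ} (hf : PT f) : PT fun a => natCode (f a) := by
  unfold Crest.Enc.natCode
  fun_prop

end PT

/-! ### Integers -/

instance : Enc ℤ := ⟨fun z => enc (decide (z < 0), z.natAbs)⟩

lemma sz_int (z : ℤ) : sz z = 2 * sz (decide (z < 0)) + 1 + sz z.natAbs := sz_prod _ _

namespace PT

@[fun_prop] lemma natAbs {f : α → ℤ} (hf : PT f) : PT fun a => (f a).natAbs :=
  (hf.of_enc (g := fun a => (decide (f a < 0), (f a).natAbs)) fun _ => rfl).snd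

lemma isNeg {f : α → ℤ} (hf : PT f) : PT fun a => decide (f a < 0) :=
  (hf.of_enc (g := fun a => (decide (f a < 0), (f a).natAbs)) fun _ => rfl).fst

lemma of_int {f : α → ℤ} (h : PT fun a => decide (f a < 0)) (h' : PT fun a => (f a).natAbs) :
    PT f := (h.pair h').of_enc fun _ => rfl

@[fun_prop] lemma toNat {f : α → ℤ} (hf : PT f) : PT fun a => (f a).toNat :=
  (hf.isNeg.cond (const 0) hf.natAbs).congr fun a => by
    by_cases h : f a < 0 <;> simp [h] <;> omega

lemma subNat {f g : α → ℕ} (hf : PT f) (hg : PT g) : PT fun a => (f a : ℤ) - g a :=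
  of_int ((hf.lt (inst := fun _ => inferInstance) hg).congr fun a => by simp)
    (((hf.sub hg).add (hg.sub hf)).congr fun a => by omega)

@[fun_prop] lemma natCast {f : α → ℕ} (hf : PT f) : PT fun a => (f a : ℤ) :=
  (hf.subNat (const 0)).congr fun a => by simp

@[fun_prop] lemma neg {f : α → ℤ} (hf : PT f) : PT fun a => -f a :=
  (((hf.isNeg.cond hf.natAbs (const 0))).subNat hf.toNat).congr fun a => by
    by_cases h : f a < 0
    · simp only [h, _root_.decide_true, cond_true]; omega
    · simp only [h, decide_false, cond_false]; omega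

@[fun_prop] lemma int_add {f g : α → ℤ} (hf : PT f) (hg : PT g) : PT fun a => f a + g a :=
  ((hf.toNat.add hg.toNat).subNat (hf.neg.toNat.add hg.neg.toNat)).congr fun a => by omega

@[fun_prop] lemma int_sub {f g : α → ℤ} (hf : PT f) (hg : PT g) : PT fun a => f a - g a :=
  (hf.int_add hg.neg).congr fun a => by ring

@[fun_prop] lemma int_mul {f g : α → ℤ} (hf : PT f) (hg : PT g) : PT fun a => f a * g a :=
  (((hf.toNat.mul hg.toNat).add (hf.neg.toNat.mul hg.neg.toNat)).subNat
    ((hf.toNat.mul hg.neg.toNat).add (hf.neg.toNat.mul hg.toNat))).congr fun a => by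
    have h1 := Int.toNat_sub_toNat_neg (f a)
    have h2 := Int.toNat_sub_toNat_neg (g a)
    conv_rhs => rw [← h1, ← h2]
    push_cast
    ring

@[fun_prop] lemma int_lt {f g : α → ℤ} {inst : ∀ a, Decidable (f a < g a)} (hf : PT f)
    (hg : PT g) : PT fun a => @decide (f a < g a) (inst a) :=
  (hf.int_sub hg).isNeg.congr fun a => by simp

@[fun_prop] lemma int_sum {l : α → List ℤ} (hl : PT l) : PT fun a => (l a).sum :=
  (foldl_add (f := fun _ s b => s + b) (by fun_prop) hl (const 0) (g := fun _ b => sz b + 3)
    (by fun_prop) fun _ s b => by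
      have h1 := sz_nat_mono (Int.natAbs_add_le s b)
      have h2 := sz_add s.natAbs b.natAbs
      have h3 := sz_bool (decide (s + b < 0))
      simp only [sz_int]
      omega).congr fun a => by rw [List.sum_eq_foldl]

@[fun_prop] lemma int_prod {l : α → List ℤ} (hl : PT l) : PT fun a => (l a).prod :=
  (foldl_add (f := fun _ s b => s * b) (by fun_prop) hl (const 1) (g := fun _ b => sz b + 3)
    (by fun_prop) fun _ s b => by
      have h2 := sz_mul s.natAbs b.natAbs
      have h3 := sz_bool (decide (s * b < 0))
      simp only [sz_int, Int.natAbs_mul]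
      omega).congr fun a => by rw [List.prod_eq_foldl]

@[fun_prop] lemma int_pow {f : α → ℤ} {t : α → ℕ} (hf : PT f) (hb : PB t) (ht : PT t) :
    PT fun a => f a ^ t a :=
  (replicate hb ht hf).int_prod.congr fun a => by simp

@[fun_prop] lemma int_sum_range {t : α → ℕ} {f : α → ℕ → ℤ} (hb : PB t) (ht : PT t)
    (hf : PT fun x : α × Un => f x.1 x.2.val) :
    PT fun a => Finset.sum (Finset.range (t a)) (f a) :=
  (mapRange hb ht hf).int_sum.congr fun _ => rfl

@[fun_prop] lemma int_prod_range {t : α → ℕ} {f : α → ℕ → ℤ} (hb : PB t) (ht : PT t)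
    (hf : PT fun x : α × Un => f x.1 x.2.val) :
    PT fun a => Finset.prod (Finset.range (t a)) (f a) :=
  (mapRange hb ht hf).int_prod.congr fun _ => rfl

@[fun_prop] lemma intCode {f : α → ℤ} (hf : PT f) : PT fun a => intCode (f a) :=
  hf.isNeg.cons hf.natAbs.natCode

lemma ratCode_intCast {f : α → ℤ} (hf : PT f) : PT fun a => ratCode (f a : ℚ) :=
  (hf.intCode.append (const (Crest.Enc.natCode 1))).congr fun a => by
    simp [Crest.Enc.intCode, ratCode]

end PT

end Crest.Agent.PT
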