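import Crest.Agent.PT.Machine

/-! Closure properties of polynomial-time string transformations. -/

set_option autoImplicit false

namespace Crest.Agent.PT

open Function
open Polynomial hiding update

/-- Each bit is preceded by `true`. -/
def dbl (u : List Bool) : List Bool := u.flatMap fun b => [true, b]

/-- The pairing of strings. -/
def pr (u v : List Bool) : List Bool := dbl u ++ false :: v

@[simp] lemma dbl_nil : dbl [] = [] := rfl
@[simp] lemma dbl_cons (b : Bool) (u : List Bool) : dbl (b :: u) = true :: b :: dbl u := rfl
@[simp] lemma dbl_append (u v : List Bool) : dbl (u ++ v) = dbl u ++ dbl v := by simp [dbl]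
@[simp] lemma length_dbl (u : List Bool) : (dbl u).length = 2 * u.length := by
  induction u with
  | nil => rfl
  | cons b u ih => simp [ih]; omega
@[simp] lemma length_pr (u v : List Bool) : (pr u v).length = 2 * u.length + 1 + v.length := by
  simp [pr]; omega

lemma eval_mono (P : ℕ[X]) {a b : ℕ} (h : a ≤ b) : P.eval a ≤ P.eval b := by
  induction P using Polynomial.induction_on' with
  | add p q hp hq => simp only [eval_add]; omega
  | monomial n c => simp only [eval_monomial]; gcongr

section sub

variable {K : Type} [DecidableEq K]

/-- Is the top symbol `true`? -/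
def isT (o : Option Bool) : Bool := o == some true

/-- Copy the top bit of `a` to `t`. -/
def cp (a t : K) : Prog K := .br a isT (.push t true) (.push t false)

lemma run_cp (a t : K) (S : K → List Bool) {b : Bool} {l : List Bool} (h : S a = b :: l) :
    RunLe (cp a t) S (update S t (b :: S t)) 2 := by
  cases b
  · exact .brf (by simp [h, isT]) (.push _ _ _)
  · exact .brt (by simp [h, isT]) (.push _ _ _)

/-- Clear a stack. -/
def clr (a : K) : Prog K := .loop a Option.isSome (.pop a)

lemma run_clr (a : K) (S : K → List Bool) :
    RunLe (clr a) S (update S a []) (2 * (S a).length + 1) := by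
  induction h : S a generalizing S with
  | nil => exact (RunLe.loop0 (by simp [h])).cast (by rw [← h, update_eq_self]) (by simp)
  | cons b l ih =>
    refine (RunLe.loop1 (by simp [h]) (.pop a S) (ih _ (by simp [h]))).cast (by simp) ?_
    simp; omega

/-- Move a stack onto another, reversing it. -/
def mv (a t : K) : Prog K := .loop a Option.isSome (.seq (cp a t) (.pop a))

lemma run_mv {a t : K} (hat : a ≠ t) (S : K → List Bool) :
    RunLe (mv a t) S (update (update S a []) t ((S a).reverse ++ S t)) (4 * (S a).length + 1) := by
  induction h : S a generalizing S with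
  | nil =>
    refine (RunLe.loop0 (by simp [h])).cast ?_ (by simp)
    rw [← h, update_eq_self]; simp [h]
  | cons b l ih =>
    refine (RunLe.loop1 (by simp [h]) ((run_cp a t S h).seq (.pop a _))
      (ih _ (by simp [h, hat]))).cast ?_ ?_
    · funext k
      by_cases h1 : k = t <;> by_cases h2 : k = a <;> simp [update, h1, h2, hat.symm]
    · simp; omega

/-- Move a stack onto two others, reversing it. -/
def mv2 (a t u : K) : Prog K := .loop a Option.isSome (.seq (cp a t) (.seq (cp a u) (.pop a)))

lemma run_mv2 {a t u : K} (hat : a ≠ t) (hau : a ≠ u) (htu : t ≠ u) (S : K → List Bool) :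
    RunLe (mv2 a t u) S (update (update (update S a []) t ((S a).reverse ++ S t)) u
      ((S a).reverse ++ S u)) (6 * (S a).length + 1) := by
  induction h : S a generalizing S with
  | nil =>
    refine (RunLe.loop0 (by simp [h])).cast ?_ (by simp)
    rw [← h, update_eq_self]; simp [h]
  | cons b l ih =>
    refine (RunLe.loop1 (by simp [h]) ((run_cp a t S h).seq
      ((run_cp a u _ (b := b) (l := l) (by simp [h, hat])).seq (.pop a _)))
      (ih _ (by simp [h, hat, hau]))).cast ?_ ?_
    · funext k
      by_cases h1 : k = t <;> by_cases h2 : k = a <;> by_cases h3 : k = u <;>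
        simp_all [update, hat.symm, hau.symm, htu.symm]
    · simp; omega

/-- Move a stack onto another, reversing and doubling it. -/
def dblmv (t a : K) : Prog K :=
  .loop t Option.isSome (.seq (cp t a) (.seq (.push a true) (.pop t)))

lemma run_dblmv {t a : K} (hat : t ≠ a) (S : K → List Bool) :
    RunLe (dblmv t a) S (update (update S t []) a (dbl (S t).reverse ++ S a))
      (5 * (S t).length + 1) := by
  induction h : S t generalizing S with
  | nil =>
    refine (RunLe.loop0 (by simp [h])).cast ?_ (by simp)
    rw [← h, update_eq_self]; simp [h]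
  | cons b l ih =>
    refine (RunLe.loop1 (by simp [h]) ((run_cp t a S h).seq ((RunLe.push a true _).seq (.pop t _)))
      (ih _ (by simp [h, hat]))).cast ?_ ?_
    · funext k
      by_cases h1 : k = t <;> by_cases h2 : k = a <;> simp [update, h1, h2, hat.symm, hat]
    · simp; omega

/-- Read off the first component of a pair. -/
def undbl (a t : K) : Prog K :=
  .seq (.loop a isT (.seq (.pop a) (.seq (cp a t) (.pop a)))) (.pop a)

lemma run_undbl_aux {a t : K} (hat : a ≠ t) (u v : List Bool) (S : K → List Bool)
    (h : S a = pr u v) :
    RunLe (.loop a isT (.seq (.pop a) (.seq (cp a t) (.pop a)))) S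
      (update (update S a (false :: v)) t (u.reverse ++ S t)) (5 * u.length + 1) := by
  induction u generalizing S with
  | nil =>
    refine (RunLe.loop0 (by simp [h, pr, isT])).cast ?_ (by simp)
    have : false :: v = S a := by simp [h, pr]
    rw [this, update_eq_self]; simp
  | cons b l ih =>
    refine (RunLe.loop1 (by simp [h, pr, isT]) ((RunLe.pop a S).seq
      ((run_cp a t _ (b := b) (l := pr l v) (by simp [h, pr])).seq (.pop a _)))
      (ih _ (by simp [h, hat, pr]))).cast ?_ ?_
    · funext k
      by_cases h1 : k = t <;> by_cases h2 : k = a <;> simp [update, h1, h2, hat.symm]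
    · simp; omega

lemma run_undbl {a t : K} (hat : a ≠ t) (u v : List Bool) (S : K → List Bool)
    (h : S a = pr u v) :
    RunLe (undbl a t) S (update (update S a v) t (u.reverse ++ S t)) (5 * u.length + 2) := by
  refine ((run_undbl_aux hat u v S h).seq (.pop a _)).cast ?_ le_rfl
  funext k
  by_cases h1 : k = t <;> by_cases h2 : k = a <;> simp [update, h1, h2, hat.symm, hat]

/-- Push a fixed string. -/
def pushAll (a : K) : List Bool → Prog K
  | [] => .skip
  | b :: l => .seq (pushAll a l) (.push a b)

lemma run_pushAll (a : K) (l : List Bool) (S : K → List Bool) :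
    RunLe (pushAll a l) S (update S a (l ++ S a)) (l.length + 1) := by
  induction l with
  | nil => exact (RunLe.skip S).cast (by simp) le_rfl
  | cons b l ih => exact (ih.seq (.push a b _)).cast (by simp) (by simp)

end sub

@[simp] lemma io_none {A : Type} (x : List Bool) : (io x : Option A → _) none = x := rfl
@[simp] lemma io_some {A : Type} (x : List Bool) (a : A) : io x (some a) = [] := rfl

lemma update_io {A : Type} [DecidableEq A] (x y : List Bool) :
    update (io x : Option A → _) none y = io y := by
  funext k; cases k <;> simp

namespace Rel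

variable {α β : Type}

lemma mk' {x y : α → List Bool} {A : Type} [Fintype A] [DecidableEq A] (p : Prog (Option A))
    (P : ℕ[X]) (h : ∀ a, RunLe p (io (x a)) (io (y a)) (P.eval (x a).length)) : Rel x y :=
  ⟨A, inferInstance, inferInstance, p, P, h⟩

lemma reindex {x y : α → List Bool} (h : Rel x y) (g : β → α) :
    Rel (fun b => x (g b)) fun b => y (g b) := by
  obtain ⟨A, _, _, p, P, h⟩ := h
  exact mk' p P fun b => h (g b)

lemma congr {x y x' y' : α → List Bool} (h : Rel x y) (hx : ∀ a, x a = x' a)
    (hy : ∀ a, y a = y' a) : Rel x' y' := by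
  rwa [← (funext hx : x = x'), ← (funext hy : y = y')]

lemma refl (x : α → List Bool) : Rel x x :=
  mk' (A := Unit) .skip 1 fun a => (RunLe.skip _).mono (by simp)

lemma length_le {x y : α → List Bool} (h : Rel x y) :
    ∃ P : ℕ[X], ∀ a, (y a).length ≤ P.eval (x a).length := by
  obtain ⟨A, _, _, p, P, h⟩ := h
  refine ⟨X + P, fun a => ?_⟩
  obtain ⟨n, hn, h⟩ := h a
  have := h.length_le none
  simp only [io_none, eval_add, eval_X] at this ⊢
  omega

lemma trans {x y z : α → List Bool} (h : Rel x y) (h' : Rel y z) : Rel x z := by
  obtain ⟨Q, hQ⟩ := h.length_le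
  obtain ⟨A, _, _, p, P, h⟩ := h
  obtain ⟨B, _, _, q, P', h'⟩ := h'
  refine mk' (A := A ⊕ B) (.seq (p.map fun o => o.elim none (some ∘ Sum.inl))
    (q.map fun o => o.elim none (some ∘ Sum.inr))) (P + P'.comp Q) fun a => ?_
  have h1 := RunLe.call (h a) (none : Option (A ⊕ B)) (some ∘ Sum.inl)
    (fun _ _ h => by simpa using h) (by simp) (io (x a)) rfl (by simp)
  rw [update_io] at h1
  have h2 := RunLe.call (h' a) (none : Option (A ⊕ B)) (some ∘ Sum.inr)
    (fun _ _ h => by simpa using h) (by simp) (io (y a)) rfl (by simp)
  rw [update_io] at h2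
  refine (h1.seq h2).mono ?_
  simp only [eval_add, eval_comp]
  have := eval_mono P' (hQ a)
  omega

lemma const (x : α → List Bool) (c : List Bool) : Rel x fun _ => c := by
  refine mk' (A := Unit) (.seq (clr none) (pushAll none c)) (2 * X + C (c.length + 2)) fun a => ?_
  refine ((run_clr none _).seq (run_pushAll none c _)).cast (by simp [update_io]) ?_
  simp; omega

lemma tail : Rel (fun x : List Bool => x) fun x => x.tail :=
  mk' (A := Unit) (.pop none) 1 fun a => (RunLe.pop none _).cast (by simp [update_io]) (by simp)

lemma fst : Rel (fun x : List Bool × List Bool => pr x.1 x.2) fun x => x.1 := by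
  refine mk' (A := Unit) (.seq (undbl none (some ())) (.seq (clr none) (mv (some ()) none)))
    (11 * X + 4) fun a => ?_
  refine ((run_undbl (a := none) (t := some ()) (by simp) a.1 a.2 (io (pr a.1 a.2)) rfl).seq
    ((run_clr none _).seq (run_mv (a := some ()) (t := none) (by simp) _))).cast ?_ ?_
  · funext k; rcases k with _ | k <;> simp
  · simp; omega

lemma snd : Rel (fun x : List Bool × List Bool => pr x.1 x.2) fun x => x.2 := by
  refine mk' (A := Unit) (.seq (undbl none (some ())) (clr (some ()))) (11 * X + 4) fun a => ?_
  refine ((run_undbl (a := none) (t := some ()) (by simp) a.1 a.2 (io (pr a.1 a.2)) rfl).seq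
    (run_clr _ _)).cast ?_ ?_
  · funext k; rcases k with _ | k <;> simp
  · simp; omega

lemma fork {x y z : α → List Bool} (h : Rel x y) (h' : Rel x z) :
    Rel x fun a => pr (y a) (z a) := by
  obtain ⟨Q, hQ⟩ := h.length_le
  obtain ⟨A, _, _, p, P, h⟩ := h
  obtain ⟨B, _, _, q, P', h'⟩ := h'
  let t : Option (Bool ⊕ A ⊕ B) := some (.inl false)
  let r : Option (Bool ⊕ A ⊕ B) := some (.inl true)
  refine mk' (A := Bool ⊕ A ⊕ B) (.seq (mv none t) (.seq (mv2 t none r)
    (.seq (p.map fun o => o.elim r (some ∘ Sum.inr ∘ Sum.inl))
    (.seq (q.map fun o => o.elim none (some ∘ Sum.inr ∘ Sum.inr))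
    (.seq (.push none false) (.seq (mv r t) (dblmv t none)))))))
    (10 * X + P + P' + 9 * Q + 5) fun a => ?_
  refine ((run_mv (by simp [t]) _).seq ((run_mv2 (by simp [t]) (by simp [t, r]) (by simp [r]) _).seq
    ((RunLe.call (h a) r _ (fun _ _ h => by simpa using h) (by simp [r]) _ (by simp [r, t])
      (by simp [r, t])).seq
    ((RunLe.call (h' a) none _ (fun _ _ h => by simpa using h) (by simp) _ (by simp [r, t])
      (by simp [r, t])).seq
    ((RunLe.push none false _).seq ((run_mv (by simp [r, t]) _).seq
      (run_dblmv (by simp [t]) _))))))).cast ?_ ?_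
  · funext k
    rcases k with _ | (_ | _) | k <;> simp [r, t, pr]
  · have := hQ a
    simp [r, t]; omega

lemma br (c : Option Bool → Bool) {x y : α → List Bool}
    (h : Rel (fun a : {a // c (x a).head? = true} => x a.1) fun a => y a.1)
    (h' : Rel (fun a : {a // c (x a).head? = false} => x a.1) fun a => y a.1) : Rel x y := by
  obtain ⟨A, _, _, p, P, h⟩ := h
  obtain ⟨B, _, _, q, P', h'⟩ := h'
  refine mk' (A := A ⊕ B) (.br none c (p.map fun o => o.elim none (some ∘ Sum.inl))
    (q.map fun o => o.elim none (some ∘ Sum.inr))) (P + P' + 1) fun a => ?_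
  cases hc : c (x a).head?
  · have h2 := RunLe.call (h' ⟨a, hc⟩) (none : Option (A ⊕ B)) (some ∘ Sum.inr)
      (fun _ _ h => by simpa using h) (by simp) (io (x a)) rfl (by simp)
    rw [update_io] at h2
    exact (RunLe.brf (k := none) (S := io (x a)) hc h2).mono (by simp)
  · have h1 := RunLe.call (h ⟨a, hc⟩) (none : Option (A ⊕ B)) (some ∘ Sum.inl)
      (fun _ _ h => by simpa using h) (by simp) (io (x a)) rfl (by simp)
    rw [update_io] at h1
    exact (RunLe.brt (k := none) (S := io (x a)) hc h1).mono (by simp)

/-- The code of a list of coded items. -/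
def lst {β : Type} (e : β → List Bool) : List β → List Bool
  | [] => []
  | b :: l => pr (e b) (lst e l)

lemma length_le_lst {β : Type} (e : β → List Bool) (l : List β) : l.length ≤ (lst e l).length := by
  induction l with
  | nil => simp
  | cons b l ih => simp [lst]; omega

lemma foldl {σ : Type} (eb : β → List Bool) (es : σ → List Bool) (f : σ → β → σ)
    (hf : Rel (fun x : β × σ => pr (eb x.1) (es x.2)) fun x => es (f x.2 x.1))
    (l : α → List β) (s : α → σ) (Q : ℕ[X])
    (hQ : ∀ a l', l' <+: l a → (es (l'.foldl f (s a))).length ≤
      Q.eval (pr (lst eb (l a)) (es (s a))).length) :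
    Rel (fun a => pr (lst eb (l a)) (es (s a))) fun a => es ((l a).foldl f (s a)) := by
  obtain ⟨A, _, _, p, P, h⟩ := hf
  let t : Option (Bool ⊕ A) := some (.inl false)
  let r : Option (Bool ⊕ A) := some (.inl true)
  let body : Prog (Option (Bool ⊕ A)) := .seq (undbl r t) (.seq (.push none false)
    (.seq (dblmv t none) (p.map fun o => o.elim none (some ∘ Sum.inr))))
  have key : ∀ (M N : ℕ) (l : List β) (s : σ), (lst eb l).length ≤ N →
      (∀ l', l' <+: l → (es (l'.foldl f s)).length ≤ M) →
      RunLe (.loop r Option.isSome body) (update (io (es s)) r (lst eb l)) (io (es (l.foldl f s)))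
        (l.length * (10 * N + 5 + P.eval (N + M)) + 1) := by
    intro M N l
    induction l with
    | nil =>
      intro s _ _
      refine (RunLe.loop0 (by simp [lst])).cast ?_ (by simp)
      funext k
      rcases k with _ | (_ | _) | k <;> simp [r, lst]
    | cons b l ih =>
      intro s hN hM
      have hb : RunLe body (update (io (es s)) r (lst eb (b :: l)))
          (update (io (es (f s b))) r (lst eb l)) (10 * N + 4 + P.eval (N + M)) := by
        refine ((run_undbl (by simp [r, t]) (eb b) (lst eb l) _ (by simp [lst])).seq
          ((RunLe.push none false _).seq ((run_dblmv (by simp [t]) _).seq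
          (RunLe.call (h (b, s)) none _ (fun _ _ h => by simpa using h) (by simp) _
            (by simp [r, t, pr]) (by simp [r, t]))))).cast ?_ ?_
        · funext k
          rcases k with _ | (_ | _) | k <;> simp [r, t]
        · have h1 := hM [] List.nil_prefix
          simp only [lst, length_pr, List.foldl_nil] at hN h1
          have h2 := eval_mono P (show (pr (eb b) (es s)).length ≤ N + M by simp; omega)
          simp [r, t] at h2 ⊢
          omega
      refine (RunLe.loop1 (by simp [lst, pr]) hb (ih (f s b) ?_ fun l' hl' => ?_)).cast rfl ?_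
      · simp only [lst, length_pr] at hN; omega
      · exact hM (b :: l') (by simpa using hl')
      · simp only [List.length_cons, add_mul]; omega
  refine mk' (A := Bool ⊕ A) (.seq (undbl none t) (.seq (mv t r) (.loop r Option.isSome body)))
    (9 * X + 4 + X * (10 * X + 5 + P.comp (X + Q))) fun a => ?_
  have h1 := key _ _ (l a) (s a) (show _ ≤ (pr (lst eb (l a)) (es (s a))).length by simp; omega)
    (hQ a)
  have h2 : RunLe (.seq (undbl none t) (mv t r)) (io (pr (lst eb (l a)) (es (s a))))
      (update (io (es (s a))) r (lst eb (l a))) (9 * (lst eb (l a)).length + 3) := by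
    refine ((run_undbl (a := none) (t := t) (by simp [t]) (lst eb (l a)) (es (s a))
      (io (pr (lst eb (l a)) (es (s a)))) rfl).seq
      (run_mv (a := t) (t := r) (by simp [r, t]) _)).cast ?_ ?_
    · funext k
      rcases k with _ | (_ | _) | k <;> simp [r, t]
    · simp [t]; omega
  obtain ⟨n, hn, h2⟩ := h2
  cases h2 with
  | seq h3 h4 =>
    refine (RunLe.seq ⟨_, le_rfl, h3⟩ (RunLe.seq ⟨_, le_rfl, h4⟩ h1)).mono ?_
    have h5 := length_le_lst eb (l a)
    simp only [eval_add, eval_mul, eval_X, eval_ofNat, eval_comp]
    set N := (pr (lst eb (l a)) (es (s a))).length with hN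
    have h6 : (lst eb (l a)).length ≤ N := by simp [hN]; omega
    have h7 := Nat.mul_le_mul_right (10 * N + 5 + P.eval (N + Q.eval N)) (h5.trans h6)
    omega

/-- The code of one bit. -/
def bitc (b : Bool) : List Bool := if b then [true] else []

lemma toList : Rel (fun x : List Bool => x) fun x => lst bitc x := by
  let t : Option Unit := some ()
  let body : Prog (Option Unit) := .seq (.br t isT (pushAll none [true, true, false])
    (pushAll none [false])) (.pop t)
  have key : ∀ (l y : List Bool), RunLe (.loop t Option.isSome body)
      (update (io (lst bitc y)) t l) (io (lst bitc (l.reverse ++ y))) (7 * l.length + 1) := by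
    intro l
    induction l with
    | nil =>
      intro y
      refine (RunLe.loop0 (by simp)).cast ?_ (by simp)
      funext k; rcases k with _ | k <;> simp [t]
    | cons b l ih =>
      intro y
      have hb : RunLe body (update (io (lst bitc y)) t (b :: l))
          (update (io (lst bitc (b :: y))) t l) 6 := by
        cases b
        · refine ((RunLe.brf (by simp [isT]) (run_pushAll _ _ _)).seq (.pop _ _)).cast ?_ (by simp)
          funext k; rcases k with _ | k <;> simp [t, lst, bitc, pr]
        · refine ((RunLe.brt (by simp [isT]) (run_pushAll _ _ _)).seq (.pop _ _)).cast ?_ (by simp)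
          funext k; rcases k with _ | k <;> simp [t, lst, bitc, pr]
      exact (RunLe.loop1 (by simp) hb (ih (b :: y))).cast (by simp) (by simp; omega)
  refine mk' (A := Unit) (.seq (mv none t) (.loop t Option.isSome body)) (11 * X + 2) fun a => ?_
  have h1 := key a.reverse []
  have h2 : RunLe (mv none t) (io a) (update (io (lst bitc [])) t a.reverse) (4 * a.length + 1) := by
    refine (run_mv (by simp [t]) _).cast ?_ (by simp)
    funext k; rcases k with _ | k <;> simp [t, lst]
  exact (h2.seq h1).cast (by simp) (by simp; omega)

lemma ofList : Rel (fun x : List Bool => lst bitc x) fun x => x := by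
  let t : Option Unit := some ()
  let body : Prog (Option Unit) := .br none isT
    (.seq (.push t true) (.seq (.pop none) (.seq (.pop none) (.pop none))))
    (.seq (.push t false) (.pop none))
  have key : ∀ (l y : List Bool), RunLe (.loop none Option.isSome body)
      (update (io (lst bitc l)) t y) (update (io []) t (l.reverse ++ y)) (6 * l.length + 1) := by
    intro l
    induction l with
    | nil =>
      intro y
      exact (RunLe.loop0 (by simp [t, lst])).cast (by simp [lst]) (by simp)
    | cons b l ih =>
      intro y
      have hb : RunLe body (update (io (lst bitc (b :: l))) t y)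
          (update (io (lst bitc l)) t (b :: y)) 5 := by
        cases b
        · refine (RunLe.brf (by simp [isT, t, lst, bitc, pr])
            ((RunLe.push _ _ _).seq (.pop _ _))).cast ?_ (by simp)
          funext k; rcases k with _ | k <;> simp [t, lst, bitc, pr]
        · refine (RunLe.brt (by simp [isT, t, lst, bitc, pr])
            ((RunLe.push _ _ _).seq ((RunLe.pop _ _).seq ((RunLe.pop _ _).seq (.pop _ _))))).cast
              ?_ (by simp)
          funext k; rcases k with _ | k <;> simp [t, lst, bitc, pr]
      refine (RunLe.loop1 ?_ hb (ih (b :: y))).cast (by simp) (by simp; omega)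
      cases b <;> simp [t, lst, bitc, pr]
  refine mk' (A := Unit) (.seq (.loop none Option.isSome body) (mv t none)) (10 * X + 2) fun a => ?_
  have h1 := key a []
  have e : update (io (lst bitc a)) t [] = io (lst bitc a) := by
    funext k; rcases k with _ | k <;> simp [t]
  rw [e] at h1
  refine (h1.seq (run_mv (by simp [t]) _)).cast ?_ ?_
  · funext k; rcases k with _ | k <;> simp [t]
  · have := length_le_lst bitc a
    simp; omega

end Rel

end Crest.Agent.PT
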