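import Crest.Agent.PT.Raw

/-! Typed layer: polynomial-time functions between coded types. -/

set_option autoImplicit false
set_option linter.dupNamespace false

namespace Crest.Agent.PT

open Polynomial

/-- Types with a fixed code by bit strings. -/
class Enc (α : Type) where
  /-- The code. -/
  enc : α → List Bool

export Enc (enc)

instance : Enc Bool := ⟨Rel.bitc⟩
instance : Enc Unit := ⟨fun _ => []⟩
instance {α β : Type} [Enc α] [Enc β] : Enc (α × β) := ⟨fun x => pr (enc x.1) (enc x.2)⟩
instance {α : Type} [Enc α] : Enc (List α) := ⟨Rel.lst enc⟩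
instance : Enc ℕ := ⟨Nat.bits⟩

/-- The size of the code. -/
def sz {α : Type} [Enc α] (a : α) : ℕ := (enc a).length

/-- Polynomial-time functions. -/
@[fun_prop] def PT {α β : Type} [Enc α] [Enc β] (f : α → β) : Prop :=
  Rel (enc : α → List Bool) fun a => enc (f a)

/-- Polynomially bounded functions. -/
@[fun_prop] def PB {α : Type} [Enc α] (t : α → ℕ) : Prop :=
  ∃ P : ℕ[X], ∀ a, t a ≤ P.eval (sz a)

variable {α β γ σ : Type} [Enc α] [Enc β] [Enc γ] [Enc σ]

lemma enc_prod (a : α) (b : β) : enc (a, b) = pr (enc a) (enc b) := rfl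
lemma enc_nil : enc ([] : List α) = [] := rfl
lemma enc_cons (a : α) (l : List α) : enc (a :: l) = pr (enc a) (enc l) := rfl

@[simp] lemma sz_prod (a : α) (b : β) : sz (a, b) = 2 * sz a + 1 + sz b := by
  simp [sz, enc_prod]
@[simp] lemma sz_nil : sz ([] : List α) = 0 := rfl
@[simp] lemma sz_cons (a : α) (l : List α) : sz (a :: l) = 2 * sz a + 1 + sz l := by
  simp [sz, enc_cons]
@[simp] lemma sz_unit (u : Unit) : sz u = 0 := rfl
lemma sz_bool (b : Bool) : sz b ≤ 1 := by cases b <;> decide
lemma sz_nat (n : ℕ) : sz n = n.size := Nat.size_eq_bits_len n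
@[simp] lemma sz_append (l l' : List α) : sz (l ++ l') = sz l + sz l' := by
  induction l with
  | nil => simp
  | cons a l ih => simp [ih]; omega
@[simp] lemma sz_reverse (l : List α) : sz l.reverse = sz l := by
  induction l with
  | nil => simp
  | cons a l ih => simp [ih]; omega
lemma length_le_sz (l : List α) : l.length ≤ sz l := Rel.length_le_lst _ l
lemma sz_le_of_mem {l : List α} {a : α} (h : a ∈ l) : sz a ≤ sz l := by
  induction l with
  | nil => simp at h
  | cons b l ih =>
    rcases List.mem_cons.1 h with rfl | h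
    · simp; omega
    · have := ih h; simp; omega
lemma sz_le_of_sublist {l l' : List α} (h : l.Sublist l') : sz l ≤ sz l' := by
  induction h with
  | slnil => simp
  | cons a _ ih => simp; omega
  | cons_cons a _ ih => simp; omega
lemma sz_fst_le (x : α × β) : sz x.1 ≤ sz x := by
  obtain ⟨a, b⟩ := x; simp; omega
lemma sz_snd_le (x : α × β) : sz x.2 ≤ sz x := by
  obtain ⟨a, b⟩ := x; simp

/-! ### Polynomial bounds -/

namespace PB

lemma mono {t u : α → ℕ} (h : PB u) (htu : ∀ a, t a ≤ u a) : PB t := by
  obtain ⟨P, hP⟩ := h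
  exact ⟨P, fun a => (htu a).trans (hP a)⟩

@[fun_prop] lemma const (c : ℕ) : PB fun _ : α => c := ⟨C c, fun a => by simp⟩

@[fun_prop] lemma add {t u : α → ℕ} (ht : PB t) (hu : PB u) : PB fun a => t a + u a := by
  obtain ⟨P, hP⟩ := ht
  obtain ⟨Q, hQ⟩ := hu
  exact ⟨P + Q, fun a => by simpa using Nat.add_le_add (hP a) (hQ a)⟩

@[fun_prop] lemma mul {t u : α → ℕ} (ht : PB t) (hu : PB u) : PB fun a => t a * u a := by
  obtain ⟨P, hP⟩ := ht
  obtain ⟨Q, hQ⟩ := hu
  exact ⟨P * Q, fun a => by simpa using Nat.mul_le_mul (hP a) (hQ a)⟩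

@[fun_prop] lemma pow {t : α → ℕ} (ht : PB t) (k : ℕ) : PB fun a => t a ^ k := by
  obtain ⟨P, hP⟩ := ht
  exact ⟨P ^ k, fun a => by simpa using Nat.pow_le_pow_left (hP a) k⟩

@[fun_prop] lemma sub {t u : α → ℕ} (ht : PB t) : PB fun a => t a - u a :=
  ht.mono fun _ => Nat.sub_le _ _

@[fun_prop] lemma div {t u : α → ℕ} (ht : PB t) : PB fun a => t a / u a :=
  ht.mono fun _ => Nat.div_le_self _ _

@[fun_prop] lemma mod {t u : α → ℕ} (ht : PB t) : PB fun a => t a % u a :=
  ht.mono fun _ => Nat.mod_le _ _

lemma mod' {t u : α → ℕ} (hu : PB u) (h : ∀ a, 0 < u a) : PB fun a => t a % u a :=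
  hu.mono fun a => (Nat.mod_lt _ (h a)).le

lemma sz_id : PB fun a : α => sz a := ⟨X, fun a => by simp⟩

end PB

lemma PT.pb_sz {f : α → β} (h : PT f) : PB fun a => sz (f a) := Rel.length_le h

lemma PB.comp {t : β → ℕ} {f : α → β} (ht : PB t) (hf : PT f) : PB fun a => t (f a) := by
  obtain ⟨P, hP⟩ := ht
  obtain ⟨Q, hQ⟩ := hf.pb_sz
  exact ⟨P.comp Q, fun a => (hP _).trans (by simpa [eval_comp] using eval_mono P (hQ a))⟩

@[fun_prop] lemma PB.sz {f : α → β} (h : PT f) : PB fun a => sz (f a) := h.pb_sz

@[fun_prop] lemma PB.length {f : α → List β} (h : PT f) : PB fun a => (f a).length :=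
  h.pb_sz.mono fun _ => length_le_sz _

/-! ### Basic closure properties -/

namespace PT

@[fun_prop] lemma id' : PT fun a : α => a := Rel.refl _

@[fun_prop] lemma const (b : β) : PT fun _ : α => b := Rel.const _ _

@[fun_prop] lemma comp {g : β → γ} {f : α → β} (hg : PT g) (hf : PT f) :
    PT fun a => g (f a) := Rel.trans hf (Rel.reindex hg f)

lemma congr {f g : α → β} (h : PT f) (hfg : ∀ a, f a = g a) : PT g := by
  rwa [← (funext hfg : f = g)]

lemma of_enc {f : α → β} {g : α → γ} (h : PT f) (hfg : ∀ a, enc (f a) = enc (g a)) : PT g :=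
  Rel.congr h (fun _ => rfl) hfg

@[fun_prop] lemma pair {f : α → β} {g : α → γ} (hf : PT f) (hg : PT g) :
    PT fun a => (f a, g a) := Rel.fork hf hg

@[fun_prop] lemma fst {f : α → β × γ} (hf : PT f) : PT fun a => (f a).1 :=
  Rel.trans hf (Rel.fst.reindex fun a => (enc (f a).1, enc (f a).2))

@[fun_prop] lemma snd {f : α → β × γ} (hf : PT f) : PT fun a => (f a).2 :=
  Rel.trans hf (Rel.snd.reindex fun a => (enc (f a).1, enc (f a).2))

@[fun_prop] lemma cond {c : α → Bool} {f g : α → β} (hc : PT c) (hf : PT f) (hg : PT g) :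
    PT fun a => cond (c a) (f a) (g a) := by
  have h0 : Rel (enc : α → List Bool) fun a => pr (enc (c a)) (enc a) := Rel.fork hc (Rel.refl _)
  have h1 : Rel (fun a => pr (enc (c a)) (enc a)) (enc : α → List Bool) :=
    Rel.snd.reindex fun a => (enc (c a), enc a)
  refine h0.trans (Rel.br isT ?_ ?_)
  · refine ((h1.trans hf).reindex Subtype.val).congr (fun _ => rfl) ?_
    rintro ⟨a, ha⟩
    cases h : c a
    · simp [h, enc, Rel.bitc, pr, isT] at ha
    · simp [h]
  · refine ((h1.trans hg).reindex Subtype.val).congr (fun _ => rfl) ?_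
    rintro ⟨a, ha⟩
    cases h : c a
    · simp [h]
    · simp [h, enc, Rel.bitc, pr, isT] at ha

@[fun_prop] lemma ite {p : α → Prop} [DecidablePred p] {f g : α → β}
    (hc : PT fun a => decide (p a)) (hf : PT f) (hg : PT g) :
    PT fun a => if p a then f a else g a :=
  (hc.cond hf hg).congr fun a => by by_cases h : p a <;> simp [h]

@[fun_prop] lemma not {c : α → Bool} (hc : PT c) : PT fun a => !(c a) :=
  (hc.cond (const false) (const true)).congr fun a => by cases c a <;> rfl

@[fun_prop] lemma and {c d : α → Bool} (hc : PT c) (hd : PT d) : PT fun a => (c a && d a) :=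
  (hc.cond hd (const false)).congr fun a => by cases c a <;> rfl

@[fun_prop] lemma or {c d : α → Bool} (hc : PT c) (hd : PT d) : PT fun a => (c a || d a) :=
  (hc.cond (const true) hd).congr fun a => by cases c a <;> rfl

@[fun_prop] lemma cons {f : α → β} {g : α → List β} (hf : PT f) (hg : PT g) :
    PT fun a => f a :: g a := Rel.fork hf hg

lemma listCases {l : α → List β} {f : α → γ} {g : α → β → List β → γ} (hl : PT l) (hf : PT f)
    (hg : PT fun x : α × β × List β => g x.1 x.2.1 x.2.2) :
    PT fun a => List.casesOn (motive := fun _ => γ) (l a) (f a) (g a) := by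
  have h0 : Rel (enc : α → List Bool) fun a => pr (enc (l a)) (enc a) := Rel.fork hl (Rel.refl _)
  have h1 : Rel (fun a => pr (enc (l a)) (enc a)) (enc : α → List Bool) :=
    Rel.snd.reindex fun a => (enc (l a), enc a)
  have h2 : Rel (fun a => pr (enc (l a)) (enc a)) (fun a => enc (l a)) :=
    Rel.fst.reindex fun a => (enc (l a), enc a)
  refine h0.trans (Rel.br isT ?_ ?_)
  · have h3 : ∀ a : {a // isT (pr (enc (l a)) (enc a)).head? = true}, ∃ x : β × List β,
        l a.1 = x.1 :: x.2 := by
      rintro ⟨a, ha⟩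
      cases h : l a with
      | nil => simp [h, enc_nil, pr, isT] at ha
      | cons b l' => exact ⟨(b, l'), rfl⟩
    choose x hx using h3
    refine (((h1.fork h2).reindex Subtype.val).trans
      ((Rel.reindex hg fun a => (a.1, x a)).congr (fun a => ?_) fun _ => rfl)).congr
      (fun _ => rfl) fun a => ?_
    · rw [hx]; rfl
    · simp only [hx]
  · refine ((h1.trans hf).reindex Subtype.val).congr (fun _ => rfl) ?_
    rintro ⟨a, ha⟩
    cases h : l a with
    | nil => simp [h]
    | cons b l' =>
      exfalso
      rw [h, enc_cons] at ha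
      cases h' : enc b <;> simp [h', pr, isT] at ha

@[fun_prop] lemma tail {l : α → List β} (hl : PT l) : PT fun a => (l a).tail :=
  (listCases (g := fun _ _ l => l) hl (const []) (by fun_prop)).congr fun a => by
    cases l a <;> rfl

@[fun_prop] lemma headD {l : α → List β} {d : α → β} (hl : PT l) (hd : PT d) :
    PT fun a => (l a).headD (d a) :=
  (listCases (g := fun _ b _ => b) hl hd (by fun_prop)).congr fun a => by
    cases l a <;> rfl

@[fun_prop] lemma isEmpty {l : α → List β} (hl : PT l) : PT fun a => (l a).isEmpty :=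
  (listCases (g := fun _ _ _ => false) hl (const true) (by fun_prop)).congr fun a => by
    cases l a <;> rfl

lemma foldl {f : α → σ → β → σ} {l : α → List β} {s : α → σ}
    (hf : PT fun x : α × σ × β => f x.1 x.2.1 x.2.2) (hl : PT l) (hs : PT s)
    {t : α → ℕ} (ht : PB t) (hb : ∀ a l', l' <+: l a → sz (l'.foldl (f a) (s a)) ≤ t a) :
    PT fun a => (l a).foldl (f a) (s a) := by
  obtain ⟨P, hP⟩ := ht
  let F : α × σ → β → α × σ := fun x b => (x.1, f x.1 x.2 b)
  have hF : ∀ (a : α) (l : List β) (s : σ), l.foldl F (a, s) = (a, l.foldl (f a) s) := by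
    intro a l
    induction l with
    | nil => intro s; rfl
    | cons b l ih => intro s; exact ih _
  have h1 : PT fun x : β × α × σ => F x.2 x.1 :=
    pair (by fun_prop) (hf.comp (f := fun x : β × α × σ => (x.2.1, x.2.2, x.1)) (by fun_prop))
  have h2 := Rel.foldl enc enc F h1 l (fun a => (a, s a)) (2 * X + 1 + P) (by
    intro a l' hl'
    rw [hF]
    have h3 : sz a ≤ (pr (Rel.lst enc (l a)) (enc (a, s a))).length := by
      change _ ≤ sz (l a, a, s a); simp; omega
    have h4 := (hb a l' hl').trans ((hP a).trans (eval_mono P h3))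
    change sz (a, _) ≤ _
    simp only [sz_prod, eval_add, eval_mul, eval_X, eval_ofNat, eval_one]
    omega)
  have h3 : PT fun a => (l a, a, s a) := by fun_prop
  have h4 : PT fun a => (l a).foldl F (a, s a) := Rel.trans h3 h2
  exact h4.snd.congr fun a => by rw [hF]

/-- Folding with additive growth of the state. -/
lemma foldl_add {f : α → σ → β → σ} {l : α → List β} {s : α → σ}
    (hf : PT fun x : α × σ × β => f x.1 x.2.1 x.2.2) (hl : PT l) (hs : PT s)
    {g : α → β → ℕ} (hg : PB fun x : α × β => g x.1 x.2)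
    (hb : ∀ a s b, sz (f a s b) ≤ sz s + g a b) :
    PT fun a => (l a).foldl (f a) (s a) := by
  obtain ⟨P, hP⟩ := hg
  have hP' : PB fun a => P.eval (sz (a, l a)) :=
    PB.comp (t := fun x : α × List β => P.eval (sz x)) ⟨P, fun _ => le_rfl⟩ (by fun_prop)
  refine foldl hf hl hs (t := fun a => sz (s a) + (l a).length * P.eval (sz (a, l a)))
    (by fun_prop) fun a l' hl' => ?_
  have key : ∀ (l' : List β) (s : σ), (∀ b ∈ l', b ∈ l a) →
      sz (l'.foldl (f a) s) ≤ sz s + l'.length * P.eval (sz (a, l a)) := by
    intro l'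
    induction l' with
    | nil => simp
    | cons b l' ih =>
      intro s h
      have h1 := ih (f a s b) fun b hb => h b (by simp [hb])
      have h2 := hb a s b
      have h3 := hP (a, b)
      have h4 := eval_mono P (show sz (a, b) ≤ sz (a, l a) by
        have := sz_le_of_mem (h b (by simp)); simp; omega)
      simp only [List.foldl_cons, List.length_cons, add_mul] at *
      omega
  refine (key l' _ fun b hb => hl'.subset hb).trans ?_
  have := hl'.length_le
  gcongr

lemma revAppend {l l' : α → List β} (hl : PT l) (hl' : PT l') :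
    PT fun a => (l a).reverse ++ l' a :=
  (foldl_add (f := fun _ s b => b :: s) (by fun_prop) hl hl' (g := fun _ b => 2 * sz b + 1)
    (by fun_prop) fun a s b => by simp; omega).congr fun a => by simp

@[fun_prop] lemma reverse {l : α → List β} (hl : PT l) : PT fun a => (l a).reverse :=
  (hl.revAppend (const [])).congr fun a => by simp

@[fun_prop] lemma append {l l' : α → List β} (hl : PT l) (hl' : PT l') :
    PT fun a => l a ++ l' a :=
  (hl.reverse.revAppend hl').congr fun a => by simp

@[fun_prop] lemma flatMap {l : α → List β} {f : α → β → List γ} (hl : PT l)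
    (hf : PT fun x : α × β => f x.1 x.2) : PT fun a => (l a).flatMap (f a) := by
  have h1 : PT fun x : α × List γ × β => f x.1 x.2.2 :=
    hf.comp (f := fun x : α × List γ × β => (x.1, x.2.2)) (by fun_prop)
  refine (foldl_add (f := fun a s b => s ++ f a b) (by fun_prop) hl (const [])
    (g := fun a b => sz (f a b)) hf.pb_sz fun a s b => by simp).congr fun a => ?_
  have : ∀ (l : List β) (s : List γ), l.foldl (fun s b => s ++ f a b) s = s ++ l.flatMap (f a) := by
    intro l
    induction l with
    | nil => simp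
    | cons b l ih => intro s; simp [ih]
  simp [this]

@[fun_prop] lemma map {l : α → List β} {f : α → β → γ} (hl : PT l)
    (hf : PT fun x : α × β => f x.1 x.2) : PT fun a => (l a).map (f a) :=
  (hl.flatMap (f := fun a b => [f a b]) (hf.cons (const []))).congr fun a => by
    simp [List.map_eq_flatMap]

@[fun_prop] lemma flatten {l : α → List (List β)} (hl : PT l) : PT fun a => (l a).flatten :=
  (hl.flatMap (f := fun _ b => b) (by fun_prop)).congr fun a => by simp

@[fun_prop] lemma filter {l : α → List β} {f : α → β → Bool} (hl : PT l)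
    (hf : PT fun x : α × β => f x.1 x.2) : PT fun a => (l a).filter (f a) :=
  (hl.flatMap (f := fun a b => _root_.cond (f a b) [b] []) (hf.cond (by fun_prop) (const _))).congr
    fun a => by
      induction l a with
      | nil => rfl
      | cons b l ih => cases h : f a b <;> simp [h, ih]

lemma enc' : PT (enc : α → List Bool) := Rel.toList.reindex enc

lemma of_enc' {f : α → β} (h : PT fun a => enc (f a)) : PT f :=
  Rel.trans h (Rel.ofList.reindex fun a => enc (f a))

theorem polyTime {f : List Bool → List Bool} (h : PT f) : Crest.Complexity.PolyTime f :=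
  Rel.computable (Rel.toList.trans (Rel.trans h (Rel.ofList.reindex f)))

end PT

end Crest.Agent.PT
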